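import Vale.Agent.P194.MathlibUsed
import Vale.Agent.P194.Defs
import Vale.Agent.P194.SoficDef

set_option linter.all false

section

section

namespace Vale.Agent.P194

open MonoidAlgebra

section Act

variable (K : Type*) (G : Type*) (X : Type*) [Ring K] [Group G] [MulAction G X]

/-- Translation of functions on a `G`-set. -/
def actG : G →* AddMonoid.End (X → K) where
  toFun g :=
    { toFun := fun F x => F (g⁻¹ • x)
      map_zero' := rfl
      map_add' := fun _ _ => rfl }
  map_one' := by
    ext F x
    change F ((1 : G)⁻¹ • x) = F x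
    simp
  map_mul' g h := by
    ext F x
    change F ((g * h)⁻¹ • x) = F (h⁻¹ • g⁻¹ • x)
    simp [mul_smul]

theorem act_comm (k : K) (g : G) :
    Commute (Module.toAddMonoidEnd K (X → K) k) (actG K G X g) := by
  change _ * _ = _ * _
  ext F x
  rfl

/-- The group ring acts on all functions on a `G`-set. -/
noncomputable def act : MonoidAlgebra K G →+* AddMonoid.End (X → K) :=
  liftNCRingHom (Module.toAddMonoidEnd K (X → K)) (actG K G X) (act_comm K G X)

variable {K G X}

theorem act_single (g : G) (k : K) (F : X → K) (x : X) :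
    act K G X (single g k) F x = k * F (g⁻¹ • x) := by
  unfold act
  rw [liftNCRingHom_single]
  rfl

theorem act_comp {Y : Type*} [MulAction G Y] (φ : X → Y)
    (hφ : ∀ (g : G) (x : X), φ (g • x) = g • φ x) (a : MonoidAlgebra K G) (F : Y → K) :
    act K G X a (fun x => F (φ x)) = fun x => act K G Y a F (φ x) := by
  have key : ((AddMonoidHom.eval (fun x => F (φ x))).comp
      ((act K G X : MonoidAlgebra K G →+* AddMonoid.End (X → K)) :
        MonoidAlgebra K G →+ AddMonoid.End (X → K))) =
      ((AddMonoidHom.mk' (fun (H : Y → K) (x : X) => H (φ x)) (fun _ _ => rfl)).comp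
        ((AddMonoidHom.eval F).comp
      ((act K G Y : MonoidAlgebra K G →+* AddMonoid.End (Y → K)) :
        MonoidAlgebra K G →+ AddMonoid.End (Y → K)))) := by
    apply MonoidAlgebra.addMonoidHom_ext
    intro g k
    ext x
    change act K G X (single g k) (fun x => F (φ x)) x = act K G Y (single g k) F (φ x)
    rw [act_single, act_single, hφ]
  exact DFunLike.congr_fun key a

end Act

end Vale.Agent.P194
end
end

section

section

namespace Vale.Agent.P194

open MonoidAlgebra

section Mact

variable {K : Type*} {G : Type*} {X : Type*} [Ring K] [Group G] [MulAction G X]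
variable {l m n : Type*} [Fintype n]

/-- A matrix over the group ring acts on vectors of functions on a `G`-set. -/
noncomputable def mact (E : Matrix m n (MonoidAlgebra K G)) : (n → X → K) →+ (m → X → K) :=
  AddMonoidHom.mk' (fun F i => ∑ j, act K G X (E i j) (F j)) (fun F F' => by
    funext i
    simp [Finset.sum_add_distrib])

theorem mact_apply (E : Matrix m n (MonoidAlgebra K G)) (F : n → X → K) (i : m) :
    mact E F i = ∑ j, act K G X (E i j) (F j) := rfl

theorem mact_one [DecidableEq n] (F : n → X → K) :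
    mact (1 : Matrix n n (MonoidAlgebra K G)) F = F := by
  funext i
  rw [mact_apply, Finset.sum_eq_single i]
  · rw [Matrix.one_apply_eq, map_one]
    rfl
  · intro j _ hj
    rw [Matrix.one_apply_ne (Ne.symm hj), map_zero]
    rfl
  · intro h
    exact absurd (Finset.mem_univ i) h

theorem mact_comp {Y : Type*} [MulAction G Y] (φ : X → Y)
    (hφ : ∀ (g : G) (x : X), φ (g • x) = g • φ x) (E : Matrix m n (MonoidAlgebra K G))
    (F : n → Y → K) :
    mact E (fun j x => F j (φ x)) = fun i x => mact E F i (φ x) := by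
  funext i x
  simp only [mact_apply, act_comp φ hφ, Finset.sum_apply]

end Mact

section CosetSum

variable {K : Type*} {G : Type*} [Ring K] [Group G]

/-- Sums of coefficients over the left cosets of `L`. -/
noncomputable def cs (L : Subgroup G) : MonoidAlgebra K G →+ (G ⧸ L → K) :=
  Finsupp.coeFnAddHom.comp
    ((Finsupp.mapDomain.addMonoidHom (fun g : G => (g : G ⧸ L))).comp
      (coeffAddEquiv.toAddMonoidHom))

theorem cs_apply (L : Subgroup G) (w : MonoidAlgebra K G) (x : G ⧸ L) :
    cs L w x = (w.coeff.mapDomain (fun g : G => (g : G ⧸ L))) x := rfl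

theorem cs_single (L : Subgroup G) (g : G) (k : K) (x : G ⧸ L) [Decidable ((g : G ⧸ L) = x)] :
    cs L (single g k) x = if (g : G ⧸ L) = x then k else 0 := by
  rw [cs_apply, coeff_single, Finsupp.mapDomain_single, Finsupp.single_apply]

theorem cs_mul (L : Subgroup G) (a w : MonoidAlgebra K G) :
    cs L (a * w) = act K G (G ⧸ L) a (cs L w) := by
  classical
  have key : (AddMonoidHom.mul.compr₂ (cs (K := K) L)) =
      (((act K G (G ⧸ L) : MonoidAlgebra K G →+* AddMonoid.End (G ⧸ L → K)) :
        MonoidAlgebra K G →+ AddMonoid.End (G ⧸ L → K)).compl₂ (cs (K := K) L)) := by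
    apply MonoidAlgebra.addMonoidHom_ext
    intro g k
    apply MonoidAlgebra.addMonoidHom_ext
    intro h r
    funext x
    change cs L (single g k * single h r) x = act K G (G ⧸ L) (single g k) (cs L (single h r)) x
    rw [act_single, single_mul_single, cs_single, cs_single]
    have : ((g * h : G) : G ⧸ L) = x ↔ ((h : G) : G ⧸ L) = g⁻¹ • x := by
      rw [eq_inv_smul_iff]
      rfl
    by_cases hx : ((g * h : G) : G ⧸ L) = x
    · rw [if_pos hx, if_pos (this.1 hx)]
    · rw [if_neg hx, if_neg (fun h' => hx (this.2 h')), mul_zero]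
  exact DFunLike.congr_fun (DFunLike.congr_fun key a) w

theorem cs_le {H L : Subgroup G} (h : H ≤ L) (w : MonoidAlgebra K G) (hw : cs H w = 0) :
    cs L w = 0 := by
  have h1 : w.coeff.mapDomain (fun g : G => (g : G ⧸ H)) = 0 := by
    ext x
    exact congrFun hw x
  funext x
  rw [cs_apply]
  have h2 : w.coeff.mapDomain (fun g : G => (g : G ⧸ L)) =
      (w.coeff.mapDomain (fun g : G => (g : G ⧸ H))).mapDomain
        (Subgroup.quotientMapOfLE h) := by
    rw [← Finsupp.mapDomain_comp]
    rfl
  rw [h2, h1]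
  simp

end CosetSum

section Inj

variable {K : Type*} {G : Type*} [Ring K] [Group G]
variable {m n : Type*} [Fintype n]

/-- `E` is injective on the vectors of functions on `G ⧸ L` supported on the image of `V`. -/
def Inj (E : Matrix m n (MonoidAlgebra K G)) (V : Finset G) (L : Subgroup G) : Prop :=
  ∀ F : n → (G ⧸ L) → K, (∀ j x, F j x ≠ 0 → ∃ g ∈ V, (g : G ⧸ L) = x) → mact E F = 0 → F = 0

/-- Passing to a smaller subgroup with the same classes on `V`. -/
theorem Inj.mono {E : Matrix m n (MonoidAlgebra K G)} {V : Finset G} {H L : Subgroup G}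
    (h : H ≤ L) (hV : ∀ g ∈ V, ∀ g' ∈ V, (g : G ⧸ L) = g' → (g : G ⧸ H) = g')
    (hL : Inj E V L) : Inj E V H := by
  classical
  intro F hF hE
  -- lift `F` to the group ring
  let w : n → MonoidAlgebra K G := fun j =>
    ∑ x ∈ V.image (fun g : G => (g : G ⧸ H)), single x.out (F j x)
  have hw : ∀ j, cs H (w j) = F j := by
    intro j
    funext y
    simp only [w, map_sum, Finset.sum_apply, cs_single, QuotientGroup.out_eq']
    by_cases hy : F j y = 0
    · rw [hy]
      apply Finset.sum_eq_zero
      intro x _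
      split_ifs with hxy
      · rw [hxy, hy]
      · rfl
    · obtain ⟨g, hg, rfl⟩ := hF j y hy
      rw [Finset.sum_ite_eq' (V.image (fun g : G => (g : G ⧸ H))) (g : G ⧸ H) (fun x => F j x)]
      rw [if_pos (Finset.mem_image_of_mem _ hg)]
  have hEw : ∀ i, cs H (∑ j, E i j * w j) = 0 := by
    intro i
    rw [map_sum]
    simp only [cs_mul, hw]
    exact congrFun hE i
  have hEw' : ∀ i, cs L (∑ j, E i j * w j) = 0 := fun i => cs_le h _ (hEw i)
  have hzero : (fun j => cs L (w j)) = 0 := by
    apply hL
    · intro j x hx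
      simp only [w, map_sum, Finset.sum_apply] at hx
      obtain ⟨y, hy, hy'⟩ := Finset.exists_ne_zero_of_sum_ne_zero hx
      rw [cs_single] at hy'
      split_ifs at hy' with hyx
      · obtain ⟨g, hg, rfl⟩ := Finset.mem_image.1 hy
        refine ⟨g, hg, ?_⟩
        rw [← hyx]
        have : ((g : G ⧸ H).out : G ⧸ H) = g := QuotientGroup.out_eq' _
        rw [QuotientGroup.eq] at this ⊢
        have := h this
        rw [← inv_mem_iff]
        simpa using this
      · exact absurd rfl hy'
    · funext i
      have := hEw' i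
      rw [map_sum] at this
      simp only [cs_mul] at this
      exact this
  funext j y
  by_contra hy
  obtain ⟨g, hg, rfl⟩ := hF j y hy
  have h0 : cs L (w j) (g : G ⧸ L) = 0 := congrFun (congrFun hzero j) _
  apply hy
  change F j (g : G ⧸ H) = 0
  rw [← h0]
  simp only [w, map_sum, Finset.sum_apply, cs_single]
  rw [Finset.sum_eq_single (g : G ⧸ H)]
  · rw [if_pos]
    have : ((g : G ⧸ H).out : G ⧸ H) = g := QuotientGroup.out_eq' _
    rw [QuotientGroup.eq] at this ⊢
    exact h this
  · intro x hx hxg
    obtain ⟨g', hg', rfl⟩ := Finset.mem_image.1 hx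
    rw [if_neg]
    intro hcon
    apply hxg
    apply hV g' hg' g hg
    rw [← hcon]
    have : ((g' : G ⧸ H).out : G ⧸ H) = g' := QuotientGroup.out_eq' _
    rw [QuotientGroup.eq] at this ⊢
    have := h this
    rw [← inv_mem_iff]
    simpa using this
  · intro hn
    exact absurd (Finset.mem_image_of_mem _ hg) hn

end Inj

end Vale.Agent.P194
end
end

section

section

namespace Vale.Agent.P194

open MonoidAlgebra

section Shift

variable {G : Type*} [Group G]

/-- Right translation on the cosets of `H'`. -/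
def shift (H' : Subgroup G) (c : G) (hc : ∀ h ∈ H', c⁻¹ * h * c ∈ H') : G ⧸ H' → G ⧸ H' :=
  Quotient.map' (fun g => g * c) (by
    intro a b hab
    rw [QuotientGroup.leftRel_apply] at hab ⊢
    have := hc _ hab
    have e : (a * c)⁻¹ * (b * c) = c⁻¹ * (a⁻¹ * b) * c := by group
    rw [e]
    exact this)

theorem shift_mk (H' : Subgroup G) (c : G) (hc : ∀ h ∈ H', c⁻¹ * h * c ∈ H') (g : G) :
    shift H' c hc (g : G ⧸ H') = ((g * c : G) : G ⧸ H') := rfl

theorem shift_smul (H' : Subgroup G) (c : G) (hc : ∀ h ∈ H', c⁻¹ * h * c ∈ H') (g : G)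
    (x : G ⧸ H') : shift H' c hc (g • x) = g • shift H' c hc x := by
  induction x using QuotientGroup.induction_on with
  | H z =>
    change ((g * z * c : G) : G ⧸ H') = ((g * (z * c) : G) : G ⧸ H')
    rw [mul_assoc]

variable {K : Type*} [Ring K] {n : Type*}

/-- Pull back by the shift. -/
def sig (K : Type*) [Ring K] (n : Type*) (H' : Subgroup G) (c : G)
    (hc : ∀ h ∈ H', c⁻¹ * h * c ∈ H') : AddMonoid.End (n → G ⧸ H' → K) :=
  AddMonoidHom.mk' (fun F j x => F j (shift H' c hc x)) (fun _ _ => rfl)

theorem sig_apply (H' : Subgroup G) (c : G) (hc : ∀ h ∈ H', c⁻¹ * h * c ∈ H')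
    (F : n → G ⧸ H' → K) (j : n) (x : G ⧸ H') :
    sig K n H' c hc F j x = F j (shift H' c hc x) := rfl

theorem sig_pow_apply (H' : Subgroup G) (c : G) (hc : ∀ h ∈ H', c⁻¹ * h * c ∈ H')
    (F : n → G ⧸ H' → K) (j : n) (g : G) (k : ℕ) :
    (sig K n H' c hc ^ k) F j (g : G ⧸ H') = F j ((g * c ^ k : G) : G ⧸ H') := by
  induction k generalizing g with
  | zero => simp
  | succ k ih =>
    rw [pow_succ']
    change (sig K n H' c hc) ((sig K n H' c hc ^ k) F) j g = _
    rw [sig_apply, shift_mk, ih, mul_assoc, ← pow_succ']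

theorem T_pow (p : ℕ) [Fact p.Prime] (hp : (p : K) = 0) (H' : Subgroup G) (c : G)
    (hc : ∀ h ∈ H', c⁻¹ * h * c ∈ H') (hcp : c ^ p ∈ H') (F : n → G ⧸ H' → K) :
    ((sig K n H' c hc - 1) ^ p) F = 0 := by
  set T := sig K n H' c hc - 1 with hT
  have h1 : sig K n H' c hc = T + 1 := by rw [hT]; abel
  obtain ⟨r, hr⟩ := (Commute.one_right T).exists_add_pow_prime_eq (Fact.out : p.Prime)
  rw [← h1, one_pow] at hr
  have h2 : (sig K n H' c hc ^ p) F = F := by
    funext j x
    induction x using QuotientGroup.induction_on with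
    | H g =>
      rw [sig_pow_apply]
      congr 1
      rw [eq_comm, QuotientGroup.eq]
      simpa using hcp
  have h3 : (sig K n H' c hc ^ p) F = (T ^ p) F + F + p • (T (r F)) := by
    rw [hr, mul_assoc, mul_assoc, one_mul]
    change (T ^ p) F + F + ((p : AddMonoid.End (n → G ⧸ H' → K)) (T (r F))) = _
    rw [AddMonoid.End.natCast_apply]
  have h4 : ∀ F' : n → G ⧸ H' → K, p • F' = 0 := by
    intro F'
    funext j x
    change p • (F' j x) = 0
    rw [nsmul_eq_mul, hp, zero_mul]
  rw [h2, h4, add_zero] at h3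
  simpa using h3.symm

end Shift

section Step

variable {K : Type*} {G : Type*} [Ring K] [Group G]
variable {m n : Type*} [Fintype n]

theorem mact_sig (E : Matrix m n (MonoidAlgebra K G)) (H' : Subgroup G) (c : G)
    (hc : ∀ h ∈ H', c⁻¹ * h * c ∈ H') (F : n → G ⧸ H' → K) :
    mact E (sig K n H' c hc F) = sig K m H' c hc (mact E F) :=
  mact_comp (shift H' c hc) (shift_smul H' c hc) E F

/-- Passing from `H` to a normal subgroup `H'` with `H / H'` cyclic of order dividing `p`. -/
theorem Inj.step (p : ℕ) [Fact p.Prime] (hp : (p : K) = 0)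
    {E : Matrix m n (MonoidAlgebra K G)} {V : Finset G}
    {H H' : Subgroup G} (h : H' ≤ H) (c : G) (hcH : c ∈ H)
    (hc : ∀ h ∈ H', c⁻¹ * h * c ∈ H') (hcp : c ^ p ∈ H')
    (hgen : ∀ h ∈ H, ∃ j : ℕ, (c ^ j)⁻¹ * h ∈ H')
    (hH : Inj E V H) : Inj E V H' := by
  classical
  intro F hF hE
  by_contra hF0
  set T : AddMonoid.End (n → G ⧸ H' → K) := sig K n H' c hc - 1 with hT
  have hTp : (T ^ p) F = 0 := T_pow p hp H' c hc hcp F
  -- minimal power killing `F`
  have hex : ∃ k, (T ^ k) F = 0 := ⟨p, hTp⟩
  set k := Nat.find hex with hk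
  have hk0 : (T ^ k) F = 0 := Nat.find_spec hex
  have hkpos : k ≠ 0 := by
    intro h0
    rw [h0] at hk0
    exact hF0 (by simpa using hk0)
  obtain ⟨k', hk'⟩ := Nat.exists_eq_succ_of_ne_zero hkpos
  have hk1 : (T ^ k') F ≠ 0 := Nat.find_min hex (by omega)
  set F' := (T ^ k') F with hF'
  have hTF' : T F' = 0 := by
    have : T ^ k = T * T ^ k' := by rw [hk', Nat.succ_eq_add_one, pow_succ']
    rw [this] at hk0
    exact hk0
  have hsig : sig K n H' c hc F' = F' := by
    have : T F' = sig K n H' c hc F' - F' := rfl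
    rw [this] at hTF'
    exact sub_eq_zero.1 hTF'
  -- `E` kills all the iterates
  have hmT : ∀ F₁ : n → G ⧸ H' → K, mact E F₁ = 0 → mact E (T F₁) = 0 := by
    intro F₁ h1
    have : T F₁ = sig K n H' c hc F₁ - F₁ := rfl
    rw [this, map_sub, mact_sig, h1, map_zero, sub_zero]
  have hiter : ∀ j, mact E ((T ^ j) F) = 0 := by
    intro j
    induction j with
    | zero => simpa using hE
    | succ j ih =>
      rw [pow_succ']
      exact hmT _ ih
  -- supports
  let π : G ⧸ H' → G ⧸ H := Subgroup.quotientMapOfLE h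
  have hπ : ∀ g : G, π (g : G ⧸ H') = (g : G ⧸ H) := fun g => rfl
  have hπs : ∀ x, π (shift H' c hc x) = π x := by
    intro x
    induction x using QuotientGroup.induction_on with
    | H z =>
      rw [shift_mk, hπ, hπ, eq_comm, QuotientGroup.eq]
      simpa using hcH
  have hsT : ∀ F₁ : n → G ⧸ H' → K, (∀ j x, F₁ j x ≠ 0 → ∃ g ∈ V, (g : G ⧸ H) = π x) →
      (∀ j x, T F₁ j x ≠ 0 → ∃ g ∈ V, (g : G ⧸ H) = π x) := by
    intro F₁ h1 j x hx
    have : T F₁ j x = F₁ j (shift H' c hc x) - F₁ j x := rfl
    rw [this] at hx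
    by_cases h2 : F₁ j x = 0
    · have h3 : F₁ j (shift H' c hc x) ≠ 0 := by
        intro h4
        exact hx (by rw [h4, h2, sub_zero])
      obtain ⟨g, hg, hg'⟩ := h1 _ _ h3
      exact ⟨g, hg, by rw [hg', hπs]⟩
    · exact h1 _ _ h2
  have hsiter : ∀ k, ∀ j x, (T ^ k) F j x ≠ 0 → ∃ g ∈ V, (g : G ⧸ H) = π x := by
    intro k
    induction k with
    | zero =>
      intro j x hx
      obtain ⟨g, hg, rfl⟩ := hF j x (by simpa using hx)
      exact ⟨g, hg, rfl⟩
    | succ k ih =>
      rw [pow_succ']
      exact hsT _ ih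
  -- descend `F'` to `G ⧸ H`
  let F₀ : n → G ⧸ H → K := fun j x => F' j ((x.out : G) : G ⧸ H')
  have hdesc : ∀ j (x : G ⧸ H'), F' j x = F₀ j (π x) := by
    intro j x
    induction x using QuotientGroup.induction_on with
    | H g =>
      change F' j (g : G ⧸ H') = F' j (((g : G ⧸ H).out : G) : G ⧸ H')
      have h1 : (((g : G ⧸ H).out : G) : G ⧸ H) = g := QuotientGroup.out_eq' _
      rw [QuotientGroup.eq] at h1
      obtain ⟨i, hi⟩ := hgen _ h1
      have h2 : (g : G ⧸ H') = (((g : G ⧸ H).out * c ^ i : G) : G ⧸ H') := by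
        rw [eq_comm, QuotientGroup.eq]
        have e : ((g : G ⧸ H).out * c ^ i)⁻¹ * g = (c ^ i)⁻¹ * ((g : G ⧸ H).out⁻¹ * g) := by
          group
        rw [e]
        exact hi
      rw [h2, ← sig_pow_apply H' c hc F' j _ i]
      have h3 : ∀ i : ℕ, (sig K n H' c hc ^ i) F' = F' := by
        intro i
        induction i with
        | zero => simp
        | succ i ih =>
          rw [pow_succ']
          change sig K n H' c hc ((sig K n H' c hc ^ i) F') = F'
          rw [ih, hsig]
      exact congrFun (congrFun (h3 i) j) _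
  have hEF₀ : mact E F₀ = 0 := by
    have h1 : mact E (fun j x => F₀ j (π x)) = fun i x => mact E F₀ i (π x) :=
      mact_comp π (fun g x => by
        induction x using QuotientGroup.induction_on with
        | H z => rfl) E F₀
    have h2 : (fun j x => F₀ j (π x)) = F' := by
      funext j x
      exact (hdesc j x).symm
    rw [h2, hiter k'] at h1
    funext i x
    induction x using QuotientGroup.induction_on with
    | H g => exact (congrFun (congrFun h1 i) (g : G ⧸ H')).symm
  have hF₀ : F₀ = 0 := by
    apply hH F₀ _ hEF₀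
    intro j x hx
    obtain ⟨g, hg, hg'⟩ := hsiter k' j _ hx
    refine ⟨g, hg, ?_⟩
    rw [hg', hπ]
    exact QuotientGroup.out_eq' _
  apply hk1
  funext j x
  rw [hdesc, hF₀]
  rfl

end Step

end Vale.Agent.P194
end
end

section

section

namespace Vale.Agent.P194

open MonoidAlgebra

section LE

variable {K : Type*} {G : Type*} {Q : Type*} [Ring K] [Group G] [Group Q]

/-- Push forward along a map of sets. -/
noncomputable def push (θ : G → Q) : MonoidAlgebra K G →+ MonoidAlgebra K Q :=
  (coeffAddEquiv.symm.toAddMonoidHom).comp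
    ((Finsupp.mapDomain.addMonoidHom θ).comp (coeffAddEquiv.toAddMonoidHom))

theorem push_single (θ : G → Q) (g : G) (k : K) : push θ (single g k) = single (θ g) k := by
  ext x
  simp [push]

theorem push_coeff (θ : G → Q) (a : MonoidAlgebra K G) :
    (push θ a).coeff = a.coeff.mapDomain θ := rfl

theorem push_mul (θ : G → Q) (F : Finset G)
    (hθ : ∀ x ∈ F, ∀ y ∈ F, θ (x * y) = θ x * θ y) (a b : MonoidAlgebra K G)
    (ha : a.coeff.support ⊆ F) (hb : b.coeff.support ⊆ F) :
    push θ (a * b) = push θ a * push θ b := by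
  have h1 : push θ a = a.coeff.sum fun g s => single (θ g) s := by
    conv_lhs => rw [← sum_coeff_single a]
    rw [map_finsuppSum]
    apply Finsupp.sum_congr
    intro g _
    rw [push_single]
  have h2 : push θ b = b.coeff.sum fun g s => single (θ g) s := by
    conv_lhs => rw [← sum_coeff_single b]
    rw [map_finsuppSum]
    apply Finsupp.sum_congr
    intro g _
    rw [push_single]
  rw [h1, h2, mul_def, map_finsuppSum, Finsupp.sum_mul]
  apply Finsupp.sum_congr
  intro g hg
  rw [map_finsuppSum, Finsupp.mul_sum]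
  apply Finsupp.sum_congr
  intro h hh
  rw [push_single, single_mul_single, hθ g (ha hg) h (hb hh)]

theorem push_eq_zero (θ : G → Q) (F : Finset G) (hθ : Set.InjOn θ F) (a : MonoidAlgebra K G)
    (ha : a.coeff.support ⊆ F) (h : push θ a = 0) : a = 0 := by
  ext g
  by_cases hg : g ∈ F
  · have h1 : (push θ a).coeff (θ g) = 0 := by rw [h]; rfl
    rw [push_coeff, Finsupp.mapDomain_apply' (F : Set G) _ (by exact_mod_cast ha) hθ hg] at h1
    simpa using h1
  · have : g ∉ a.coeff.support := fun h => hg (ha h)
    simpa using Finsupp.notMem_support_iff.1 this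

variable {n : Type*} [Fintype n] [DecidableEq n]

/-- If `G` is locally embeddable into groups `Q` for which `M_n(K[Q])` is directly finite, then
`M_n(K[G])` is directly finite. -/
theorem localEmb_matrix
    (hG : ∀ F : Finset G, ∃ (Q : Type*) (_ : Group Q) (θ : G → Q), Set.InjOn θ F ∧
      (∀ x ∈ F, ∀ y ∈ F, θ (x * y) = θ x * θ y) ∧
      ∀ A B : Matrix n n (MonoidAlgebra K Q), A * B = 1 → B * A = 1)
    (A B : Matrix n n (MonoidAlgebra K G)) (hAB : A * B = 1) : B * A = 1 := by
  classical
  let S : Finset G := Finset.univ.biUnion fun q : n × n => (A q.1 q.2).coeff.support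
  let T : Finset G := Finset.univ.biUnion fun q : n × n => (B q.1 q.2).coeff.support
  let W : Finset G := Finset.univ.biUnion fun q : n × n => ((B * A - 1) q.1 q.2).coeff.support
  let U : Finset G := insert 1 (S ∪ T ∪ W)
  obtain ⟨Q, _, θ, hinj, hmul, hQ⟩ := hG U
  have h1U : (1 : G) ∈ U := Finset.mem_insert_self _ _
  have hAU : ∀ i j, (A i j).coeff.support ⊆ U := by
    intro i j g hg
    apply Finset.mem_insert_of_mem
    apply Finset.mem_union_left
    apply Finset.mem_union_left
    exact Finset.mem_biUnion.2 ⟨(i, j), Finset.mem_univ _, hg⟩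
  have hBU : ∀ i j, (B i j).coeff.support ⊆ U := by
    intro i j g hg
    apply Finset.mem_insert_of_mem
    apply Finset.mem_union_left
    apply Finset.mem_union_right
    exact Finset.mem_biUnion.2 ⟨(i, j), Finset.mem_univ _, hg⟩
  have hWU : ∀ i j, ((B * A - 1) i j).coeff.support ⊆ U := by
    intro i j g hg
    apply Finset.mem_insert_of_mem
    apply Finset.mem_union_right
    exact Finset.mem_biUnion.2 ⟨(i, j), Finset.mem_univ _, hg⟩
  have hone : θ 1 = 1 := by
    have := hmul 1 h1U 1 h1U
    rw [mul_one] at this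
    exact mul_left_cancel (a := θ 1) (by rw [← this, mul_one])
  have hpush1 : (1 : Matrix n n (MonoidAlgebra K G)).map (push θ) = 1 := by
    apply Matrix.map_one _ (map_zero _)
    rw [MonoidAlgebra.one_def, push_single, hone]
    rfl
  have hpm : ∀ C D : Matrix n n (MonoidAlgebra K G), (∀ i j, (C i j).coeff.support ⊆ U) →
      (∀ i j, (D i j).coeff.support ⊆ U) → (C * D).map (push θ) = C.map (push θ) * D.map (push θ) := by
    intro C D hC hD
    apply Matrix.ext
    intro i j
    rw [Matrix.map_apply, Matrix.mul_apply, Matrix.mul_apply, map_sum]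
    apply Finset.sum_congr rfl
    intro l _
    exact push_mul θ U hmul _ _ (hC _ _) (hD _ _)
  have h1 : A.map (push θ) * B.map (push θ) = 1 := by
    rw [← hpm A B hAU hBU, hAB, hpush1]
  have h2 := hQ _ _ h1
  rw [← hpm B A hBU hAU] at h2
  have h3 : B * A - 1 = 0 := by
    apply Matrix.ext
    intro i j
    apply push_eq_zero θ U hinj _ (hWU i j)
    have h4 := congrFun (congrFun h2 i) j
    have h5 := congrFun (congrFun hpush1 i) j
    rw [Matrix.map_apply] at h4 h5
    rw [Matrix.sub_apply, map_sub, h4, h5, sub_self]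
  exact sub_eq_zero.1 h3

end LE

end Vale.Agent.P194
end
end

section

section

namespace Vale.Agent.P194

open MonoidAlgebra

section FI

variable {K : Type*} {G : Type*} [Ring K] [Group G] (H : Subgroup G)

/-- The coefficient block: the part of `t_i⁻¹ a t_j` lying in `K[H]`. -/
noncomputable def block (x y : G) : MonoidAlgebra K G →+ MonoidAlgebra K H :=
  open Classical in
  coeffAddEquiv.symm.toAddMonoidHom.comp
    ((Finsupp.liftAddHom (fun g : G =>
      if h : x⁻¹ * g * y ∈ H then
        (Finsupp.singleAddHom (⟨x⁻¹ * g * y, h⟩ : H) : K →+ (H →₀ K)) else 0)).comp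
      coeffAddEquiv.toAddMonoidHom)

theorem block_single_pos (x y g : G) (k : K) (h : x⁻¹ * g * y ∈ H) :
    block H x y (single g k) = single (⟨x⁻¹ * g * y, h⟩ : H) k := by
  classical
  unfold block
  change ofCoeff ((Finsupp.liftAddHom _) (Finsupp.single g k)) = _
  rw [Finsupp.liftAddHom_apply_single, dif_pos h]
  rfl

theorem block_single_neg (x y g : G) (k : K) (h : x⁻¹ * g * y ∉ H) :
    block H x y (single g k) = 0 := by
  classical
  unfold block
  change ofCoeff ((Finsupp.liftAddHom _) (Finsupp.single g k)) = _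
  rw [Finsupp.liftAddHom_apply_single, dif_neg h]
  rfl

variable [H.FiniteIndex]

/-- The cosets of a finite index subgroup are finitely many. -/
noncomputable local instance fintypeQuot : Fintype (G ⧸ H) := Fintype.ofFinite _

theorem block_mul (a b : MonoidAlgebra K G) (x y : G) :
    block H x y (a * b) = ∑ q : G ⧸ H, block H x q.out a * block H q.out y b := by
  classical
  have key : (AddMonoidHom.mul.compr₂ (block (K := K) H x y)) =
      ∑ q : G ⧸ H, (AddMonoidHom.mul.compl₂ (block (K := K) H q.out y)).comp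
        (block (K := K) H x q.out) := by
    apply MonoidAlgebra.addMonoidHom_ext
    intro g k
    apply MonoidAlgebra.addMonoidHom_ext
    intro h r
    rw [AddMonoidHom.finsetSum_apply, AddMonoidHom.finsetSum_apply]
    change block H x y (single g k * single h r) =
      ∑ q : G ⧸ H, block H x q.out (single g k) * block H q.out y (single h r)
    rw [single_mul_single, Finset.sum_eq_single ((h * y : G) : G ⧸ H)]
    · have hq : ((h * y : G) : G ⧸ H).out⁻¹ * (h * y) ∈ H := by
        have : (((h * y : G) : G ⧸ H).out : G ⧸ H) = ((h * y : G) : G ⧸ H) :=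
          QuotientGroup.out_eq' _
        exact QuotientGroup.eq.1 this
      set t := ((h * y : G) : G ⧸ H).out with ht
      have hq' : t⁻¹ * h * y ∈ H := by rw [mul_assoc]; exact hq
      rw [block_single_pos H t y h r hq']
      by_cases hx : x⁻¹ * g * t ∈ H
      · have hxy : x⁻¹ * (g * h) * y ∈ H := by
          have e : x⁻¹ * (g * h) * y = (x⁻¹ * g * t) * (t⁻¹ * h * y) := by group
          rw [e]
          exact H.mul_mem hx hq'
        rw [block_single_pos H x y _ _ hxy, block_single_pos H x t g k hx, single_mul_single]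
        congr 1
        apply Subtype.ext
        change x⁻¹ * (g * h) * y = (x⁻¹ * g * t) * (t⁻¹ * h * y)
        group
      · have hxy : x⁻¹ * (g * h) * y ∉ H := by
          intro hxy
          apply hx
          have e : x⁻¹ * g * t = (x⁻¹ * (g * h) * y) * (t⁻¹ * h * y)⁻¹ := by group
          rw [e]
          exact H.mul_mem hxy (H.inv_mem hq')
        rw [block_single_neg H x y _ _ hxy, block_single_neg H x t g k hx, zero_mul]
    · intro q _ hq
      have hneg : q.out⁻¹ * h * y ∉ H := by
        intro hcon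
        apply hq
        have h1 : (q.out : G ⧸ H) = ((h * y : G) : G ⧸ H) := by
          rw [QuotientGroup.eq, ← mul_assoc]
          exact hcon
        rw [← h1]
        exact (QuotientGroup.out_eq' q).symm
      rw [block_single_neg H _ _ _ _ hneg, mul_zero]
    · intro hn
      exact absurd (Finset.mem_univ _) hn
  have := DFunLike.congr_fun (DFunLike.congr_fun key a) b
  rw [AddMonoidHom.finsetSum_apply, AddMonoidHom.finsetSum_apply] at this
  exact this

theorem block_one (q q' : G ⧸ H) [Decidable (q = q')] :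
    block H q.out q'.out (1 : MonoidAlgebra K G) = if q = q' then 1 else 0 := by
  rw [MonoidAlgebra.one_def]
  split_ifs with h
  · subst h
    have h1 : q.out⁻¹ * 1 * q.out ∈ H := by simp
    rw [block_single_pos H _ _ _ _ h1, MonoidAlgebra.one_def]
    congr 1
    apply Subtype.ext
    change q.out⁻¹ * 1 * q.out = 1
    group
  · rw [block_single_neg]
    intro hcon
    apply h
    rw [mul_one] at hcon
    have h1 : (q.out : G ⧸ H) = (q'.out : G ⧸ H) := QuotientGroup.eq.2 hcon
    rw [← QuotientGroup.out_eq' q, h1]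
    exact QuotientGroup.out_eq' q'

theorem block_coeff (x y : G) (a : MonoidAlgebra K G) (h : H) :
    (block H x y a).coeff h = a.coeff (x * h * y⁻¹) := by
  classical
  have key : (Finsupp.applyAddHom h).comp (coeffAddEquiv.toAddMonoidHom.comp
      (block (K := K) H x y)) =
      (Finsupp.applyAddHom (x * h * y⁻¹)).comp coeffAddEquiv.toAddMonoidHom := by
    apply MonoidAlgebra.addMonoidHom_ext
    intro g k
    change (block H x y (single g k)).coeff h = (single g k).coeff (x * h * y⁻¹)
    by_cases hg : x⁻¹ * g * y ∈ H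
    · rw [block_single_pos H x y g k hg, coeff_single, coeff_single, Finsupp.single_apply,
        Finsupp.single_apply]
      have : ((⟨x⁻¹ * g * y, hg⟩ : H) = h) ↔ (g = x * h * y⁻¹) := by
        constructor
        · intro h1
          have h2 : x⁻¹ * g * y = (h : G) := congrArg Subtype.val h1
          rw [← h2]
          group
        · intro h1
          apply Subtype.ext
          change x⁻¹ * g * y = (h : G)
          rw [h1]
          group
      by_cases h3 : g = x * h * y⁻¹
      · rw [if_pos h3, if_pos (this.2 h3)]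
      · rw [if_neg h3, if_neg (fun h4 => h3 (this.1 h4))]
    · rw [block_single_neg H x y g k hg, coeff_zero, coeff_single, Finsupp.single_apply,
        if_neg]
      · rfl
      · intro h1
        apply hg
        rw [h1]
        have : x⁻¹ * (x * ↑h * y⁻¹) * y = h := by group
        rw [this]
        exact h.2
  exact DFunLike.congr_fun key a

variable {n : Type*} [Fintype n] [DecidableEq n]

/-- Finite index overgroups. -/
theorem finIndex_matrix [DecidableEq (G ⧸ H)]
    (hH : ∀ A B : Matrix (n × (G ⧸ H)) (n × (G ⧸ H)) (MonoidAlgebra K H), A * B = 1 → B * A = 1)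
    (A B : Matrix n n (MonoidAlgebra K G)) (hAB : A * B = 1) : B * A = 1 := by
  let Φ : Matrix n n (MonoidAlgebra K G) →
      Matrix (n × (G ⧸ H)) (n × (G ⧸ H)) (MonoidAlgebra K H) :=
    fun C => Matrix.of fun i j => block H i.2.out j.2.out (C i.1 j.1)
  have hmul : ∀ C D, Φ (C * D) = Φ C * Φ D := by
    intro C D
    apply Matrix.ext
    intro i j
    rw [Matrix.mul_apply]
    change block H i.2.out j.2.out ((C * D) i.1 j.1) =
      ∑ l : n × (G ⧸ H), block H i.2.out l.2.out (C i.1 l.1) * block H l.2.out j.2.out (D l.1 j.1)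
    rw [Matrix.mul_apply, map_sum, Fintype.sum_prod_type]
    apply Finset.sum_congr rfl
    intro l _
    exact block_mul H _ _ _ _
  have hone : Φ 1 = 1 := by
    apply Matrix.ext
    intro i j
    change block H i.2.out j.2.out ((1 : Matrix n n (MonoidAlgebra K G)) i.1 j.1) = _
    rw [Matrix.one_apply, Matrix.one_apply]
    by_cases h1 : i.1 = j.1
    · rw [if_pos h1, block_one]
      by_cases h2 : i.2 = j.2
      · rw [if_pos h2, if_pos (Prod.ext h1 h2)]
      · rw [if_neg h2, if_neg (fun h => h2 (congrArg Prod.snd h))]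
    · rw [if_neg h1, map_zero, if_neg (fun h => h1 (congrArg Prod.fst h))]
  have hinj : Function.Injective Φ := by
    intro C D hCD
    apply Matrix.ext
    intro i j
    ext g
    have h1 := congrFun (congrFun hCD (i, ((g : G) : G ⧸ H))) (j, ((1 : G) : G ⧸ H))
    change block H _ _ (C i j) = block H _ _ (D i j) at h1
    have h2 : ((g : G ⧸ H)).out⁻¹ * g * (((1 : G) : G ⧸ H)).out ∈ H := by
      have h3 : ((g : G ⧸ H).out : G ⧸ H) = (g : G ⧸ H) := QuotientGroup.out_eq' _
      have h4 : (((1 : G) : G ⧸ H).out : G ⧸ H) = ((1 : G) : G ⧸ H) := QuotientGroup.out_eq' _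
      rw [QuotientGroup.eq] at h3 h4
      apply H.mul_mem h3
      rw [mul_one, inv_mem_iff] at h4
      exact h4
    have h3 := congrArg (fun c => c.coeff ⟨_, h2⟩) h1
    simp only [block_coeff] at h3
    have e : (g : G ⧸ H).out * ((g : G ⧸ H).out⁻¹ * g * (((1 : G) : G ⧸ H)).out) *
        (((1 : G) : G ⧸ H)).out⁻¹ = g := by group
    rw [e] at h3
    exact h3
  apply hinj
  rw [hmul, hone]
  apply hH
  rw [← hmul, hAB, hone]

/-- Finite index overgroups, stable version. -/
theorem finIndex_stable [IsStablyFiniteRing (MonoidAlgebra K H)]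
    (A B : Matrix n n (MonoidAlgebra K G)) (hAB : A * B = 1) : B * A = 1 := by
  classical
  exact finIndex_matrix H (fun A B h => mul_eq_one_symm h) A B hAB

end FI

end Vale.Agent.P194
end
end

section

section

/-! Kaplansky: complex group algebras are directly finite, for every group. -/

namespace Vale.Agent.P194.Kap

open MonoidAlgebra
open scoped InnerProductSpace

variable {G : Type*} [Group G]

/-- The Hilbert space of square summable functions on `G`. -/
noncomputable abbrev H (G : Type*) := lp (fun _ : G => ℂ) 2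

theorem memlp_comp (σ : G ≃ G) (x : G → ℂ) (hx : Memℓp x 2) : Memℓp (fun h => x (σ h)) 2 := by
  have h2 : 0 < (2 : ENNReal).toReal := by norm_num
  rw [memℓp_gen_iff h2] at hx ⊢
  exact (σ.summable_iff (f := fun i => ‖x i‖ ^ (2 : ENNReal).toReal)).2 hx

/-- Composition with a permutation of `G`. -/
noncomputable def comp (σ : G ≃ G) : H G ≃ₗᵢ[ℂ] H G where
  toFun x := ⟨fun h => x (σ h), memlp_comp σ x x.2⟩
  invFun x := ⟨fun h => x (σ.symm h), memlp_comp σ.symm x x.2⟩
  map_add' x y := by ext h; rfl
  map_smul' c x := by ext h; rfl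
  left_inv x := by ext h; simp
  right_inv x := by ext h; simp
  norm_map' x := by
    have h2 : 0 < (2 : ENNReal).toReal := by norm_num
    rw [lp.norm_eq_tsum_rpow h2, lp.norm_eq_tsum_rpow h2]
    congr 1
    exact σ.tsum_eq (fun i => ‖x i‖ ^ (2 : ENNReal).toReal)

/-- The left regular representation by bounded operators. -/
noncomputable def L : G →* (H G →L[ℂ] H G) where
  toFun g := (comp (Equiv.mulLeft g⁻¹) : H G ≃ₗᵢ[ℂ] H G).toContinuousLinearEquiv
  map_one' := by
    ext x h
    change x ((1 : G)⁻¹ * h) = x h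
    simp
  map_mul' a b := by
    ext x h
    change x ((a * b)⁻¹ * h) = x (b⁻¹ * (a⁻¹ * h))
    simp [mul_assoc]

theorem L_apply (g : G) (x : H G) (h : G) : (L g x : G → ℂ) h = x (g⁻¹ * h) := rfl

/-- Right translations. -/
noncomputable def R (g : G) : H G ≃ₗᵢ[ℂ] H G := comp (Equiv.mulRight g)

theorem R_apply (g : G) (x : H G) (h : G) : (R g x : G → ℂ) h = x (h * g) := rfl

theorem L_R (g h : G) (x : H G) : L g (R h x) = R h (L g x) := by
  ext k
  rw [L_apply, R_apply, R_apply, L_apply, mul_assoc]

/-- The group algebra acting on `ℓ²(G)`. -/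
noncomputable def lam : MonoidAlgebra ℂ G →ₐ[ℂ] (H G →L[ℂ] H G) :=
  MonoidAlgebra.lift ℂ _ G (L (G := G))

theorem lam_apply (a : MonoidAlgebra ℂ G) (x : H G) :
    lam a x = a.coeff.sum fun g c => c • L g x := by
  rw [lam, MonoidAlgebra.lift_apply]
  rw [Finsupp.sum, Finsupp.sum, _root_.sum_apply]
  rfl

theorem lam_R (a : MonoidAlgebra ℂ G) (h : G) (x : H G) : lam a (R h x) = R h (lam a x) := by
  rw [lam_apply, lam_apply, Finsupp.sum, Finsupp.sum, map_sum]
  apply Finset.sum_congr rfl
  intro g _
  rw [L_R, map_smul]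

section delta

variable [DecidableEq G]

/-- Point mass. -/
noncomputable def del (g : G) : H G := lp.single 2 g (1 : ℂ)

theorem del_apply (g h : G) : (del g : G → ℂ) h = if h = g then 1 else 0 := by
  rw [del, lp.single_apply, Pi.single_apply]

theorem R_del (g h : G) : R g (del h) = del (h * g⁻¹) := by
  ext k
  rw [R_apply, del_apply, del_apply]
  congr 1
  rw [eq_mul_inv_iff_mul_eq]

theorem L_del (g h : G) : L g (del h) = del (g * h) := by
  ext k
  rw [L_apply, del_apply, del_apply]
  congr 1
  rw [inv_mul_eq_iff_eq_mul]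

theorem inner_del (g : G) (x : H G) : ⟪del g, x⟫_ℂ = x g := by
  rw [del, lp.inner_single_left]
  simp

theorem lam_del_apply (a : MonoidAlgebra ℂ G) (h : G) :
    (lam a (del 1) : G → ℂ) h = a.coeff h := by
  rw [← inner_del, lam_apply, Finsupp.sum, inner_sum]
  have : ∀ g ∈ a.coeff.support, ⟪del h, a.coeff g • L g (del 1)⟫_ℂ =
      if h = g then a.coeff g else 0 := by
    intro g _
    rw [inner_smul_right, L_del, mul_one, inner_del, del_apply]
    split_ifs <;> simp
  rw [Finset.sum_congr rfl this, Finset.sum_ite_eq]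
  split_ifs with h1
  · rfl
  · exact (Finsupp.notMem_support_iff.1 h1).symm

/-- An idempotent of the complex group algebra with vanishing coefficient at `1` is zero. -/
theorem idem_zero (e : MonoidAlgebra ℂ G) (he : e * e = e) (ht : e.coeff 1 = 0) : e = 0 := by
  set E : H G →L[ℂ] H G := lam e with hE
  have hEE : ∀ x, E (E x) = E x := by
    intro x
    have := congrArg (fun T : H G →L[ℂ] H G => T x) (map_mul lam e e)
    rw [he] at this
    exact this.symm
  let S : Submodule ℂ (H G) := LinearMap.ker ((1 - E : H G →L[ℂ] H G) : H G →ₗ[ℂ] H G)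
  have hS : ∀ x, x ∈ S ↔ E x = x := by
    intro x
    change (1 - E : H G →L[ℂ] H G) x = 0 ↔ _
    rw [_root_.sub_apply, sub_eq_zero, _root_.one_apply_eq_self]
    exact eq_comm
  have hSc : IsClosed (S : Set (H G)) := ContinuousLinearMap.isClosed_ker (1 - E)
  have : CompleteSpace S := hSc.completeSpace_coe
  set P : H G →L[ℂ] H G := S.starProjection with hP
  have hPS : ∀ x, P x ∈ S := fun x => Submodule.starProjection_apply_mem S x
  have hPE : ∀ x, P (E x) = E x := by
    intro x
    exact Submodule.starProjection_eq_self_iff.2 ((hS _).2 (hEE x))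
  have hEP : ∀ x, E (P x) = P x := fun x => (hS _).1 (hPS x)
  have hmap : ∀ g, S.map (R g).toLinearEquiv.toLinearMap = S := by
    intro g
    apply le_antisymm
    · rintro _ ⟨x, hx, rfl⟩
      rw [hS]
      change E (R g x) = R g x
      rw [hE, lam_R, ← hE, (hS x).1 hx]
    · intro x hx
      refine ⟨(R g).symm x, ?_, by simp⟩
      change (R g).symm x ∈ S
      rw [hS]
      apply (R g).injective
      rw [hE, ← lam_R, LinearIsometryEquiv.apply_symm_apply]
      exact (hS x).1 hx
  have hPR : ∀ g x, P (R g x) = R g (P x) := by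
    intro g x
    have h1 := Submodule.starProjection_map_apply (R g) S (R g x)
    rw [LinearIsometryEquiv.symm_apply_apply] at h1
    rw [← hP] at h1
    rw [← h1]
    have h2 : ∀ (S' : Submodule ℂ (H G)) [S'.HasOrthogonalProjection], S' = S →
        S'.starProjection (R g x) = P (R g x) := by
      intro S' _ hS'
      subst hS'
      rfl
    exact (h2 _ (hmap g)).symm
  -- trace computations
  have t1 : ⟪del 1, P (E (del 1))⟫_ℂ = ⟪del 1, E (P (del 1))⟫_ℂ := by
    rw [hE, lam_apply, lam_apply, Finsupp.sum, Finsupp.sum, map_sum, inner_sum, inner_sum]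
    apply Finset.sum_congr rfl
    intro g _
    rw [map_smul, inner_smul_right, inner_smul_right]
    congr 1
    rw [L_del, mul_one, inner_del, inner_del, L_apply, mul_one]
    have : del g = R g⁻¹ (del (1 : G)) := by rw [R_del, inv_inv, one_mul]
    rw [this, hPR, R_apply, one_mul]
  have t2 : ⟪del 1, E (del 1)⟫_ℂ = 0 := by
    rw [inner_del, hE, lam_del_apply, ht]
  rw [hPE, t2, hEP] at t1
  have hP1 : P (del 1) = 0 := by
    have h1 : ⟪P (del (1 : G)), P (del 1)⟫_ℂ = 0 := by
      have := Submodule.inner_starProjection_left_eq_right S (del (1 : G)) (P (del 1))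
      rw [← hP] at this
      rw [this]
      have h3 : P (P (del (1 : G))) = P (del 1) :=
        Submodule.starProjection_eq_self_iff.2 (hPS _)
      rw [h3, ← t1]
    exact inner_self_eq_zero.1 h1
  have hPg : ∀ g : G, P (del g) = 0 := by
    intro g
    have : del g = R g⁻¹ (del (1 : G)) := by rw [R_del, inv_inv, one_mul]
    rw [this, hPR, hP1, map_zero]
  have hE1 : E (del 1) = 0 := by
    ext g
    rw [← inner_del, ← hPE (del 1)]
    have := Submodule.inner_starProjection_left_eq_right S (del g) (E (del 1))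
    rw [← hP] at this
    rw [← this, hPg, inner_zero_left]
    rfl
  ext g
  rw [← lam_del_apply, ← hE, hE1]
  rfl

end delta

/-- Kaplansky's theorem over the complex numbers. -/
theorem kaplansky (a b : MonoidAlgebra ℂ G) (hab : a * b = 1) : b * a = 1 := by
  classical
  have hid : (1 - b * a) * (1 - b * a) = 1 - b * a := by
    have : b * a * (b * a) = b * a := by
      rw [mul_assoc, ← mul_assoc a b a, hab, one_mul]
    rw [mul_sub, sub_mul, sub_mul, this]
    simp
  have htr : ∀ x y : MonoidAlgebra ℂ G, (x * y).coeff 1 = (y * x).coeff 1 := by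
    intro x y
    induction x using MonoidAlgebra.induction_linear with
    | zero => simp
    | add x x' hx hx' => rw [add_mul, mul_add, coeff_add, coeff_add, Finsupp.add_apply,
        Finsupp.add_apply, hx, hx']
    | single g s =>
      induction y using MonoidAlgebra.induction_linear with
      | zero => simp
      | add y y' hy hy' => rw [add_mul, mul_add, coeff_add, coeff_add, Finsupp.add_apply,
          Finsupp.add_apply, hy, hy']
      | single h t =>
        rw [single_mul_single, single_mul_single, coeff_single, coeff_single,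
          Finsupp.single_apply, Finsupp.single_apply, mul_comm t s]
        congr 1
        rw [eq_iff_iff, mul_eq_one_iff_eq_inv, mul_eq_one_iff_eq_inv]
        constructor
        · intro h'
          rw [h', inv_inv]
        · intro h'
          rw [h', inv_inv]
  have ht : (1 - b * a).coeff 1 = 0 := by
    have h1 : (1 - b * a : MonoidAlgebra ℂ G).coeff 1 =
        (1 : MonoidAlgebra ℂ G).coeff 1 - (b * a).coeff 1 := by
      rw [coeff_sub]
      rfl
    rw [h1, htr b a, hab, sub_self]
  have := idem_zero (1 - b * a) hid ht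
  exact (sub_eq_zero.1 this).symm

end Vale.Agent.P194.Kap
end
end

section

section

/-! A system of integral polynomial equations without complex solutions has no solutions in
fields of all but finitely many characteristics. -/

namespace Vale.Agent.P194

open MvPolynomial

attribute [local instance] algebraMvPolynomial

theorem descent {σ : Type*} [Finite σ] (S : Set (MvPolynomial σ ℤ))
    (hS : ¬ ∃ x : σ → ℂ, ∀ f ∈ S, eval₂ (Int.castRingHom ℂ) x f = 0) :
    ∃ D : ℕ, 0 < D ∧ ∀ (K : Type*) [Field K] (x : σ → K),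
      (∀ f ∈ S, eval₂ (Int.castRingHom K) x f = 0) → (D : K) = 0 := by
  classical
  have key : ∃ d : ℤ, d ≠ 0 ∧ C d ∈ Ideal.span S := by
    by_contra hcon
    push Not at hcon
    have hdis : Disjoint (((nonZeroDivisors ℤ).map (C (σ := σ)) : Submonoid _) : Set (MvPolynomial σ ℤ))
        (Ideal.span S : Set (MvPolynomial σ ℤ)) := by
      rw [Set.disjoint_left]
      rintro _ ⟨d, hd, rfl⟩ h2
      exact hcon d (nonZeroDivisors.ne_zero hd) h2
    have hne : (Ideal.span S).map (algebraMap (MvPolynomial σ ℤ) (MvPolynomial σ ℚ)) ≠ ⊤ :=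
      (IsLocalization.map_algebraMap_ne_top_iff_disjoint
        ((nonZeroDivisors ℤ).map (C (σ := σ))) (MvPolynomial σ ℚ) (Ideal.span S)).2 hdis
    obtain ⟨m, hm, hle⟩ := Ideal.exists_le_maximal _ hne
    let k := MvPolynomial σ ℚ ⧸ m
    let _ : Field k := Ideal.Quotient.field m
    have : Algebra.FiniteType ℚ k := inferInstance
    have : Module.Finite ℚ k := finite_of_finite_type_of_isJacobsonRing ℚ k
    have : Algebra.IsAlgebraic ℚ k := inferInstance
    let φ : k →ₐ[ℚ] ℂ := IsAlgClosed.lift
    let ψ : MvPolynomial σ ℚ →ₐ[ℚ] ℂ := φ.comp (Ideal.Quotient.mkₐ ℚ m)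
    apply hS
    refine ⟨fun i => ψ (X i), fun f hf => ?_⟩
    have h1 : algebraMap (MvPolynomial σ ℤ) (MvPolynomial σ ℚ) f ∈ m :=
      hle (Ideal.mem_map_of_mem _ (Ideal.subset_span hf))
    have h2 : ψ (algebraMap (MvPolynomial σ ℤ) (MvPolynomial σ ℚ) f) = 0 := by
      change φ (Ideal.Quotient.mk m _) = 0
      rw [Ideal.Quotient.eq_zero_iff_mem.2 h1, map_zero]
    have h3 : (eval₂Hom (Int.castRingHom ℂ) (fun i => ψ (X i))) =
        (ψ : MvPolynomial σ ℚ →+* ℂ).comp (algebraMap (MvPolynomial σ ℤ) (MvPolynomial σ ℚ)) := by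
      apply MvPolynomial.ringHom_ext
      · intro r
        simp
      · intro i
        have hXi : (algebraMap (MvPolynomial σ ℤ) (MvPolynomial σ ℚ)) (X i) = X i := by
          rw [algebraMap_def, map_X]
        rw [RingHom.comp_apply, hXi, coe_eval₂Hom, eval₂_X]
        rfl
    have h4 := congrArg (fun F => F f) h3
    simp only [coe_eval₂Hom, RingHom.comp_apply] at h4
    rw [h4]
    exact h2
  obtain ⟨d, hd, hmem⟩ := key
  refine ⟨d.natAbs, Int.natAbs_pos.2 hd, fun K _ x hx => ?_⟩
  have h1 : Ideal.span S ≤ RingHom.ker (eval₂Hom (Int.castRingHom K) x) := by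
    rw [Ideal.span_le]
    intro f hf
    exact hx f hf
  have h2 := h1 hmem
  rw [RingHom.mem_ker, coe_eval₂Hom, eval₂_C] at h2
  have h3 : ((d : ℤ) : K) = 0 := h2
  have h4 : ((d.natAbs : ℤ) : K) = 0 := by
    rcases Int.natAbs_eq d with h | h
    · rw [← h]
      exact h3
    · rw [← neg_eq_zero, ← Int.cast_neg, ← h]
      exact h3
  simpa using h4

end Vale.Agent.P194
end
end

section

section

/-! Direct finiteness for all groups and all large characteristics, for elements of bounded
support. -/

namespace Vale.Agent.P194.LargeChar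

open MonoidAlgebra
open scoped Classical

universe u v

variable {m n : ℕ}

/-- Coincidence pattern of the products of two finite families of group elements. -/
abbrev Pat (m n : ℕ) := (Fin m × Fin n → Fin m × Fin n → Prop) × (Fin m × Fin n → Prop)

def pat {G : Type*} [Group G] (u : Fin m → G) (v : Fin n → G) : Pat m n :=
  (fun q q' => u q'.1 * v q'.2 = u q.1 * v q.2, fun q => u q.1 * v q.2 = 1)

/-- The equations expressing `a * b = 1`. -/
noncomputable def Ev {R : Type*} [CommRing R] (τ : Pat m n) (o : Option (Fin m × Fin n))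
    (x : Fin m → R) (y : Fin n → R) : R :=
  o.elim (if ∃ q, τ.2 q then 0 else 1)
    (fun q => (∑ q', if τ.1 q q' then x q'.1 * y q'.2 else 0) - if τ.2 q then 1 else 0)

theorem Ev_map {R S : Type*} [CommRing R] [CommRing S] (f : R →+* S) (τ : Pat m n)
    (o : Option (Fin m × Fin n)) (x : Fin m → R) (y : Fin n → R) :
    f (Ev τ o x y) = Ev τ o (fun i => f (x i)) (fun j => f (y j)) := by
  cases o with
  | none =>
    simp only [Ev, Option.elim]
    split_ifs <;> simp
  | some q =>
    simp only [Ev, Option.elim]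
    rw [map_sub, map_sum]
    congr 1
    · apply Finset.sum_congr rfl
      intro q' _
      split_ifs <;> simp
    · split_ifs <;> simp

theorem coeff_prod {R : Type*} [CommRing R] {G : Type*} [Group G] (u : Fin m → G) (v : Fin n → G)
    (x : Fin m → R) (y : Fin n → R) (g : G) :
    ((∑ i, single (u i) (x i)) * (∑ j, single (v j) (y j)) : MonoidAlgebra R G).coeff g =
      ∑ q : Fin m × Fin n, if u q.1 * v q.2 = g then x q.1 * y q.2 else 0 := by
  rw [Finset.sum_mul_sum, ← Finset.sum_product', coeff_sum, Finset.univ_product_univ,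
    Finsupp.finsetSum_apply]
  apply Finset.sum_congr rfl
  intro q _
  rw [single_mul_single, coeff_single, Finsupp.single_apply]

theorem mul_eq_one_iff_Ev {R : Type*} [CommRing R] {G : Type*} [Group G] (u : Fin m → G)
    (v : Fin n → G) (x : Fin m → R) (y : Fin n → R) :
    ((∑ i, single (u i) (x i)) * (∑ j, single (v j) (y j)) : MonoidAlgebra R G) = 1 ↔
      ∀ o, Ev (pat u v) o x y = 0 := by
  constructor
  · intro h o
    have hc : ∀ g, (∑ q : Fin m × Fin n, if u q.1 * v q.2 = g then x q.1 * y q.2 else 0) =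
        if g = 1 then (1 : R) else 0 := by
      intro g
      rw [← coeff_prod, h, MonoidAlgebra.one_def, coeff_single, Finsupp.single_apply]
      congr 1
      exact propext eq_comm
    cases o with
    | none =>
      change (if ∃ q : Fin m × Fin n, u q.1 * v q.2 = 1 then (0 : R) else 1) = 0
      split_ifs with h1
      · rfl
      · push Not at h1
        have := hc 1
        rw [if_pos rfl] at this
        rw [← this]
        apply Finset.sum_eq_zero
        intro q _
        rw [if_neg (h1 q)]
    | some q =>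
      change (∑ q' : Fin m × Fin n, if u q'.1 * v q'.2 = u q.1 * v q.2 then x q'.1 * y q'.2 else 0)
        - (if u q.1 * v q.2 = 1 then 1 else 0) = 0
      rw [hc, sub_self]
  · intro h
    ext g
    rw [coeff_prod, MonoidAlgebra.one_def, coeff_single, Finsupp.single_apply]
    by_cases hg : ∃ q : Fin m × Fin n, u q.1 * v q.2 = g
    · obtain ⟨q, rfl⟩ := hg
      have h1 := sub_eq_zero.1 (h (some q))
      change (∑ q' : Fin m × Fin n, if u q'.1 * v q'.2 = u q.1 * v q.2 then x q'.1 * y q'.2 else 0)
        = (if u q.1 * v q.2 = 1 then 1 else 0) at h1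
      rw [h1]
      congr 1
      exact propext eq_comm
    · push Not at hg
      rw [Finset.sum_eq_zero (fun q _ => if_neg (hg q))]
      split_ifs with h1
      · have h2 := h none
        change (if ∃ q : Fin m × Fin n, u q.1 * v q.2 = 1 then (0 : R) else 1) = 0 at h2
        rw [if_neg] at h2
        · exact h2.symm
        · rintro ⟨q, hq⟩
          exact hg q (hq.trans h1)
      · rfl

/-- A pair of patterns which occurs in some group. -/
def Real (σ : Pat m n × Pat n m) : Prop :=
  ∃ (G : Type u) (_ : Group G) (u : Fin m → G) (v : Fin n → G), pat u v = σ.1 ∧ pat v u = σ.2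

theorem real_complex (σ : Pat m n × Pat n m) (hσ : Real.{u} σ) (x : Fin m → ℂ) (y : Fin n → ℂ)
    (h : ∀ o, Ev σ.1 o x y = 0) (o : Option (Fin n × Fin m)) : Ev σ.2 o y x = 0 := by
  obtain ⟨G, _, u, v, h1, h2⟩ := hσ
  rw [← h1, ← mul_eq_one_iff_Ev] at h
  have h3 := Kap.kaplansky _ _ h
  rw [mul_eq_one_iff_Ev, h2] at h3
  exact h3 o

theorem bound_one (σ : Pat m n × Pat n m) (hσ : Real.{u} σ) (o : Option (Fin n × Fin m)) :
    ∃ D : ℕ, 0 < D ∧ ∀ (K : Type v) [Field K] (x : Fin m → K) (y : Fin n → K),
      (∀ o, Ev σ.1 o x y = 0) → (D : K) ≠ 0 → Ev σ.2 o y x = 0 := by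
  let ι := (Fin m ⊕ Fin n) ⊕ Unit
  let A := MvPolynomial ι ℤ
  let X : Fin m → A := fun i => MvPolynomial.X (Sum.inl (Sum.inl i))
  let Y : Fin n → A := fun j => MvPolynomial.X (Sum.inl (Sum.inr j))
  let Z : A := MvPolynomial.X (Sum.inr ())
  let S : Set A := insert (Ev σ.2 o Y X * Z - 1) (Set.range fun o' => Ev σ.1 o' X Y)
  have hev : ∀ (R : Type (max v 0)) [CommRing R] (w : ι → R), True := fun _ _ _ => trivial
  obtain ⟨D, hD, hDK⟩ := descent S (by
    rintro ⟨w, hw⟩
    let φ : A →+* ℂ := MvPolynomial.eval₂Hom (Int.castRingHom ℂ) w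
    have hφ : ∀ f ∈ S, φ f = 0 := hw
    have h1 : ∀ o', Ev σ.1 o' (fun i => φ (X i)) (fun j => φ (Y j)) = 0 := by
      intro o'
      rw [← Ev_map]
      exact hφ _ (Set.mem_insert_of_mem _ ⟨o', rfl⟩)
    have h2 := real_complex σ hσ _ _ h1 o
    have h3 := hφ _ (Set.mem_insert _ _)
    rw [map_sub, map_mul, Ev_map, h2, zero_mul, map_one, zero_sub, neg_eq_zero] at h3
    exact one_ne_zero h3)
  refine ⟨D, hD, fun K _ x y hxy hDne => ?_⟩
  by_contra hne
  apply hDne
  let w : ι → K := Sum.elim (Sum.elim x y) (fun _ => (Ev σ.2 o y x)⁻¹)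
  apply hDK K w
  let φ : A →+* K := MvPolynomial.eval₂Hom (Int.castRingHom K) w
  have hX : ∀ i, φ (X i) = x i := fun i => MvPolynomial.eval₂Hom_X' _ _ _
  have hY : ∀ j, φ (Y j) = y j := fun j => MvPolynomial.eval₂Hom_X' _ _ _
  have hZ : φ Z = (Ev σ.2 o y x)⁻¹ := MvPolynomial.eval₂Hom_X' _ _ _
  intro f hf
  change φ f = 0
  rcases hf with rfl | ⟨o', rfl⟩
  · rw [map_sub, map_mul, Ev_map, map_one, hZ]
    simp only [hX, hY]
    rw [mul_inv_cancel₀ hne, sub_self]
  · change φ (Ev σ.1 o' X Y) = 0
    rw [Ev_map]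
    simp only [hX, hY]
    exact hxy o'

theorem bound_all (m n : ℕ) :
    ∃ D : ℕ, 0 < D ∧ ∀ (σ : Pat m n × Pat n m), Real.{u} σ → ∀ o : Option (Fin n × Fin m),
      ∀ (K : Type v) [Field K] (x : Fin m → K) (y : Fin n → K),
      (∀ o, Ev σ.1 o x y = 0) → (D : K) ≠ 0 → Ev σ.2 o y x = 0 := by
  have key : ∀ q : (Pat m n × Pat n m) × Option (Fin n × Fin m), ∃ D : ℕ, 0 < D ∧
      (Real.{u} q.1 → ∀ (K : Type v) [Field K] (x : Fin m → K) (y : Fin n → K),
      (∀ o, Ev q.1.1 o x y = 0) → (D : K) ≠ 0 → Ev q.1.2 q.2 y x = 0) := by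
    intro q
    by_cases h : Real.{u} q.1
    · obtain ⟨D, hD, h1⟩ := bound_one.{u, v} q.1 h q.2
      exact ⟨D, hD, fun _ => h1⟩
    · exact ⟨1, one_pos, fun h' => absurd h' h⟩
  choose D hD h using key
  have : Finite ((Pat m n × Pat n m) × Option (Fin n × Fin m)) := inferInstance
  have := Fintype.ofFinite ((Pat m n × Pat n m) × Option (Fin n × Fin m))
  refine ⟨∏ q, D q, Finset.prod_pos fun q _ => hD q, fun σ hσ o K _ x y hxy hne => ?_⟩
  apply h (σ, o) hσ K x y hxy
  intro h0
  apply hne
  rw [Nat.cast_prod]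
  exact Finset.prod_eq_zero (Finset.mem_univ (σ, o)) h0

theorem exists_repr {K : Type*} [Field K] {G : Type*} [Group G] (a : MonoidAlgebra K G) (m : ℕ)
    (ha : a.coeff.support.card ≤ m) :
    ∃ (u : Fin m → G) (x : Fin m → K), a = ∑ i, single (u i) (x i) := by
  let e := a.coeff.support.equivFin
  let u : Fin m → G := fun i => if h : (i : ℕ) < a.coeff.support.card then (e.symm ⟨i, h⟩ : G) else 1
  let x : Fin m → K := fun i => if h : (i : ℕ) < a.coeff.support.card then
    a.coeff (e.symm ⟨i, h⟩ : G) else 0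
  refine ⟨u, x, ?_⟩
  have h1 : ∑ i : Fin m, single (u i) (x i) =
      ∑ i : Fin a.coeff.support.card, (single (u (Fin.castLE ha i)) (x (Fin.castLE ha i)) :
        MonoidAlgebra K G) := by
    symm
    apply Finset.sum_of_injOn (Fin.castLE ha) (Fin.castLE_injective ha).injOn
    · intro i _
      exact Finset.mem_univ _
    · intro i _ hi
      have : ¬ (i : ℕ) < a.coeff.support.card := by
        intro h
        apply hi
        exact ⟨⟨i, h⟩, by simp, by ext; simp⟩
      change single _ (dite _ _ _) = 0
      rw [dif_neg this, single_zero]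
    · intro i _
      rfl
  rw [h1]
  have h2 : ∀ i : Fin a.coeff.support.card,
      (single (u (Fin.castLE ha i)) (x (Fin.castLE ha i)) : MonoidAlgebra K G) =
        single (e.symm i : G) (a.coeff (e.symm i : G)) := by
    intro i
    have hi : ((Fin.castLE ha i : Fin m) : ℕ) < a.coeff.support.card := by simp
    change single (dite _ _ _) (dite _ _ _) = _
    rw [dif_pos hi, dif_pos hi]
    rfl
  rw [Finset.sum_congr rfl (fun i _ => h2 i),
    e.symm.sum_comp (fun g : a.coeff.support => (single (g : G) (a.coeff (g : G)) :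
      MonoidAlgebra K G)), Finset.sum_coe_sort a.coeff.support
      (fun g => (single g (a.coeff g) : MonoidAlgebra K G))]
  conv_lhs => rw [← sum_coeff_single a]
  rfl

/-- **All groups, large characteristic.** -/
theorem large_char (m n : ℕ) : ∃ D : ℕ, 0 < D ∧ ∀ (K : Type v) [Field K] (G : Type u) [Group G],
    (D : K) ≠ 0 → ∀ a b : MonoidAlgebra K G, a.coeff.support.card ≤ m →
      b.coeff.support.card ≤ n → a * b = 1 → b * a = 1 := by
  obtain ⟨D, hD, h⟩ := bound_all.{u, v} m n
  refine ⟨D, hD, fun K _ G _ hne a b ha hb hab => ?_⟩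
  obtain ⟨u, x, rfl⟩ := exists_repr a m ha
  obtain ⟨v, y, rfl⟩ := exists_repr b n hb
  rw [mul_eq_one_iff_Ev] at hab ⊢
  intro o
  exact h (pat u v, pat v u) ⟨G, _, u, v, rfl, rfl⟩ o K x y hab hne

end Vale.Agent.P194.LargeChar
end
end

section

section

namespace Vale.Agent.P194.LeftOrd

open MonoidAlgebra

variable {K : Type*} [DivisionRing K] {G : Type*} [Group G]

/-- Left multiplication by a scalar on functions. -/
def scalFun (K : Type*) [DivisionRing K] (G : Type*) (c : K) : AddMonoid.End (G → K) :=
  AddMonoidHom.mk' (fun u w => c * u w) (fun a b => funext fun w => mul_add c (a w) (b w))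

/-- Left translation on functions. -/
def transFun (K : Type*) [DivisionRing K] (G : Type*) [Group G] (g : G) :
    AddMonoid.End (G → K) :=
  AddMonoidHom.mk' (fun u w => u (g⁻¹ * w)) (fun _ _ => rfl)

/-- Left multiplication by scalars on functions. -/
def scal (K : Type*) [DivisionRing K] (G : Type*) : K →+* AddMonoid.End (G → K) where
  toFun := scalFun K G
  map_one' := AddMonoidHom.ext fun u => funext fun w => one_mul (u w)
  map_mul' a b := AddMonoidHom.ext fun u => funext fun w => mul_assoc a b (u w)
  map_zero' := AddMonoidHom.ext fun u => funext fun w => zero_mul (u w)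
  map_add' a b := AddMonoidHom.ext fun u => funext fun w => add_mul a b (u w)

/-- Left translation on functions. -/
def trans (K : Type*) [DivisionRing K] (G : Type*) [Group G] : G →* AddMonoid.End (G → K) where
  toFun := transFun K G
  map_one' := AddMonoidHom.ext fun u => funext fun w => by
    change u (1⁻¹ * w) = u w
    rw [inv_one, one_mul]
  map_mul' a b := AddMonoidHom.ext fun u => funext fun w => by
    change u ((a * b)⁻¹ * w) = u (b⁻¹ * (a⁻¹ * w))
    rw [mul_inv_rev, mul_assoc]

theorem scal_trans_commute (c : K) (g : G) : Commute (scal K G c) (trans K G g) :=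
  AddMonoidHom.ext fun _ => funext fun _ => rfl

/-- The action of the group algebra on all functions. -/
noncomputable def act (K : Type*) [DivisionRing K] (G : Type*) [Group G] :
    MonoidAlgebra K G →+* AddMonoid.End (G → K) :=
  liftNCRingHom (scal K G) (trans K G) scal_trans_commute

theorem act_single (g : G) (c : K) (u : G → K) (w : G) :
    act K G (single g c) u w = c * u (g⁻¹ * w) :=
  congrFun (DFunLike.congr_fun
    (liftNCRingHom_single (scal K G) (trans K G) scal_trans_commute g c) u) w

theorem act_apply (x : MonoidAlgebra K G) (u : G → K) (w : G) :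
    act K G x u w = ∑ g ∈ x.coeff.support, x.coeff g * u (g⁻¹ * w) := by
  change _ = x.coeff.sum fun g c => c * u (g⁻¹ * w)
  induction x using MonoidAlgebra.induction_linear with
  | zero => simp
  | add x y hx hy =>
    rw [map_add, coeff_add, Finsupp.sum_add_index']
    · exact congrArg₂ (· + ·) hx hy
    · intro a; simp
    · intro a b c; simp [add_mul]
  | single g c =>
    rw [act_single, coeff_single, Finsupp.sum_single_index (by simp)]

section Order

variable [LinearOrder G] [MulLeftStrictMono G]

/-- nonzero group algebra elements act injectively on functions with well founded support -/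
theorem act_ne_zero {x : MonoidAlgebra K G} (hx : x ≠ 0) {u : G → K} (hu : u ≠ 0)
    (hs : (Function.support u).IsWF) : act K G x u ≠ 0 := by
  classical
  have hne : (Function.support u).Nonempty := Function.support_nonempty_iff.mpr hu
  set w0 := hs.min hne with hw0
  have hw0mem : u w0 ≠ 0 := hs.min_mem hne
  have hmin : ∀ w, w < w0 → u w = 0 := by
    intro w hw
    by_contra h
    exact (hs.not_lt_min hne (show w ∈ Function.support u from h)) hw
  have hxs : x.coeff.support.Nonempty := by
    rw [Finsupp.support_nonempty_iff]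
    simpa using hx
  obtain ⟨g0, hg0, hg0min⟩ := Finset.exists_min_image x.coeff.support (fun g => g * w0) hxs
  intro h
  have h1 := congrFun h (g0 * w0)
  rw [act_apply, Finset.sum_eq_single g0] at h1
  · rw [inv_mul_cancel_left] at h1
    exact (mul_ne_zero (Finsupp.mem_support_iff.mp hg0) hw0mem) h1
  · intro g hg hgg
    have h2 : g0 * w0 < g * w0 := lt_of_le_of_ne (hg0min g hg) (fun h => hgg (mul_right_cancel h).symm)
    have h3 : g⁻¹ * (g0 * w0) < w0 := by
      have := mul_lt_mul_right h2 g⁻¹
      rwa [inv_mul_cancel_left] at this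
    rw [hmin _ h3, mul_zero]
  · intro h; exact absurd hg0 h

end Order

section Higman

variable {α ι : Type*} [LinearOrder α]

/-- closure of a set under finitely many maps -/
def clos (S : Set ι) (f : ι → α → α) (A : Set α) : Set α :=
  {t | ∃ l : List ι, (∀ i ∈ l, i ∈ S) ∧ ∃ a ∈ A, l.foldr f a = t}

omit [LinearOrder α] in
theorem subset_clos (S : Set ι) (f : ι → α → α) (A : Set α) : A ⊆ clos S f A := by
  intro a ha
  exact ⟨[], by simp, a, ha, rfl⟩

omit [LinearOrder α] in
theorem step_clos {S : Set ι} {f : ι → α → α} {A : Set α} {i : ι} (hi : i ∈ S) {t : α}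
    (ht : t ∈ clos S f A) : f i t ∈ clos S f A := by
  obtain ⟨l, hl, a, ha, rfl⟩ := ht
  refine ⟨i :: l, ?_, a, ha, rfl⟩
  intro j hj
  rcases List.mem_cons.mp hj with h | h
  · exact h ▸ hi
  · exact hl j h

theorem foldr_mono {S : Set ι} {f : ι → α → α} (hmono : ∀ i ∈ S, Monotone (f i))
    (hexp : ∀ i ∈ S, ∀ a, a ≤ f i a) {l₁ l₂ : List ι} (h : List.SublistForall₂ (· = ·) l₁ l₂) :
    (∀ i ∈ l₂, i ∈ S) → ∀ a b : α, a ≤ b → l₁.foldr f a ≤ l₂.foldr f b := by
  induction h with
  | @nil l =>
    intro hl a b hab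
    induction l with
    | nil => exact hab
    | cons i l ih =>
      exact (ih fun j hj => hl j (List.mem_cons_of_mem _ hj)).trans
        (hexp i (hl i (List.mem_cons_self)) _)
  | @cons a₁ a₂ l₁ l₂ h1 h2 ih =>
    intro hl a b hab
    subst h1
    exact hmono a₁ (hl a₁ List.mem_cons_self)
      (ih (fun j hj => hl j (List.mem_cons_of_mem _ hj)) a b hab)
  | @cons_right i l₁ l₂ h ih =>
    intro hl a b hab
    exact (ih (fun j hj => hl j (List.mem_cons_of_mem _ hj)) a b hab).trans
        (hexp i (hl i (List.mem_cons_self)) _)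

theorem clos_isPWO {S : Set ι} (hS : S.Finite) {f : ι → α → α} (hmono : ∀ i ∈ S, Monotone (f i))
    (hexp : ∀ i ∈ S, ∀ a, a ≤ f i a) {A : Set α} (hA : A.IsPWO) : (clos S f A).IsPWO := by
  have h1 := Set.PartiallyWellOrderedOn.partiallyWellOrderedOn_sublistForall₂ (· = ·)
    (hS.partiallyWellOrderedOn (r := fun a b : ι => a = b))
  have : IsPreorder (List ι) (List.SublistForall₂ (fun a b : ι => a = b)) :=
    { refl := fun l => refl_of (List.SublistForall₂ (fun a b : ι => a = b)) l
      trans := fun a b c h1 h2 => trans_of (List.SublistForall₂ (fun a b : ι => a = b)) h1 h2 }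
  have h2 := h1.prod hA
  have h3 : (clos S f A) = (fun p : List ι × α => p.1.foldr f p.2) ''
      ({l : List ι | ∀ x, x ∈ l → x ∈ S} ×ˢ A) := by
    ext t
    constructor
    · rintro ⟨l, hl, a, ha, rfl⟩
      exact ⟨(l, a), ⟨hl, ha⟩, rfl⟩
    · rintro ⟨⟨l, a⟩, ⟨hl, ha⟩, rfl⟩
      exact ⟨l, hl, a, ha, rfl⟩
  rw [h3]
  refine h2.image_of_monotone_on ?_
  rintro ⟨l₁, a⟩ ⟨hl₁, ha⟩ ⟨l₂, b⟩ ⟨hl₂, hb⟩ ⟨h, hab⟩
  exact foldr_mono hmono hexp h hl₂ a b hab

end Higman

section Surj

variable [LinearOrder G] [MulLeftStrictMono G]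

theorem exists_act_eq {x : MonoidAlgebra K G} (hx : x ≠ 0) {v : G → K}
    (hv : (Function.support v).IsWF) :
    ∃ u : G → K, (Function.support u).IsWF ∧ act K G x u = v := by
  classical
  set S := x.coeff.support with hS
  have hxs : S.Nonempty := by
    rw [hS, Finsupp.support_nonempty_iff]
    simpa using hx
  have hlo : ∀ t : G, ∃ g ∈ S, ∀ g' ∈ S, g * t ≤ g' * t := fun t =>
    Finset.exists_min_image S (fun g => g * t) hxs
  have hhi : ∀ w : G, ∃ g ∈ S, ∀ g' ∈ S, g'⁻¹ * w ≤ g⁻¹ * w := fun w =>
    Finset.exists_max_image S (fun g => g⁻¹ * w) hxs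
  choose m hmS hm using hlo
  choose M hMS hM using hhi
  have lt_iff : ∀ a b c : G, a * b < a * c ↔ b < c := by
    intro a b c
    constructor
    · intro h
      have := mul_lt_mul_right h a⁻¹
      rwa [inv_mul_cancel_left, inv_mul_cancel_left] at this
    · intro h
      exact mul_lt_mul_right h a
  have le_iff : ∀ a b c : G, a * b ≤ a * c ↔ b ≤ c := by
    intro a b c
    rw [← not_lt, ← not_lt, lt_iff]
  -- the map psi
  set psi : G → G := fun w => (M w)⁻¹ * w with hpsi
  have psi_mono : Monotone psi := by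
    intro a b hab
    calc psi a = (M a)⁻¹ * a := rfl
      _ ≤ (M a)⁻¹ * b := (le_iff _ _ _).mpr hab
      _ ≤ psi b := hM b (M a) (hMS a)
  have psi_ge : ∀ w, ∀ g ∈ S, g⁻¹ * w ≤ psi w := fun w g hg => hM w g hg
  have phi_psi : ∀ w, m (psi w) * psi w = w := by
    intro w
    apply le_antisymm
    · calc m (psi w) * psi w ≤ M w * psi w := hm (psi w) (M w) (hMS w)
        _ = w := by simp [hpsi]
    · have := psi_ge w (m (psi w)) (hmS _)
      have h2 := (le_iff (m (psi w)) _ _).mpr this
      rwa [mul_inv_cancel_left] at h2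
  have psi_phi : ∀ t, psi (m t * t) = t := by
    intro t
    apply le_antisymm
    · have h1 : m t * t ≤ M (m t * t) * t := hm t _ (hMS _)
      have h2 := (le_iff (M (m t * t))⁻¹ _ _).mpr h1
      rwa [inv_mul_cancel_left] at h2
    · have := psi_ge (m t * t) (m t) (hmS t)
      rwa [inv_mul_cancel_left] at this
  -- the closure
  set f : G → G → G := fun g t => psi (g * t) with hf
  have fmono : ∀ g ∈ (S : Set G), Monotone (f g) := by
    intro g _ a b hab
    exact psi_mono ((le_iff _ _ _).mpr hab)
  have fexp : ∀ g ∈ (S : Set G), ∀ a, a ≤ f g a := by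
    intro g hg a
    have := psi_ge (g * a) g hg
    rwa [inv_mul_cancel_left] at this
  set A : Set G := psi '' (Function.support v) with hA
  have hApwo : A.IsPWO := (Set.isPWO_iff_isWF.mpr hv).image_of_monotone psi_mono
  set T : Set G := clos (S : Set G) f A with hT
  have hTpwo : T.IsPWO := clos_isPWO S.finite_toSet fmono fexp hApwo
  have hTwf : T.IsWF := hTpwo.isWF
  have hwf : WellFounded (fun a b : T => (a : G) < b) := hTwf
  have keylt : ∀ t : G, ∀ g ∈ S.erase (m t), g⁻¹ * (m t * t) < t := by
    intro t g hg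
    rw [Finset.mem_erase] at hg
    have h1 : m t * t < g * t :=
      lt_of_le_of_ne (hm t g hg.2) (fun h => hg.1 (mul_right_cancel h).symm)
    have h2 := (lt_iff g⁻¹ _ _).mpr h1
    rwa [inv_mul_cancel_left] at h2
  let F : (t : T) → ((s : T) → (s : G) < t → K) → K := fun t rec =>
    (x.coeff (m t))⁻¹ * (v (m t * t) - ∑ g ∈ (S.erase (m t)).attach,
      x.coeff g.1 * (if h : g.1⁻¹ * (m t * t) ∈ T then
        rec ⟨g.1⁻¹ * (m t * t), h⟩ (keylt t g.1 g.2) else 0))
  let uT : T → K := hwf.fix F
  have huT : ∀ t : T, uT t = F t (fun s _ => uT s) := fun t => hwf.fix_eq F t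
  let u : G → K := fun t => if h : t ∈ T then uT ⟨t, h⟩ else 0
  have hu_supp : Function.support u ⊆ T := by
    intro t ht
    by_contra h
    exact ht (by simp [u, h])
  refine ⟨u, hTwf.mono hu_supp, ?_⟩
  funext w
  rw [act_apply]
  by_cases ht : psi w ∈ T
  · have h1 := huT ⟨psi w, ht⟩
    have h2 : u (psi w) = uT ⟨psi w, ht⟩ := by simp [u, ht]
    have hmem : m (psi w) ∈ S := hmS _
    have hne : x.coeff (m (psi w)) ≠ 0 := Finsupp.mem_support_iff.mp hmem
    rw [← Finset.add_sum_erase S _ hmem]
    have h3 : (m (psi w))⁻¹ * w = psi w := by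
      conv_lhs => rw [← phi_psi w]
      rw [phi_psi w, inv_mul_eq_iff_eq_mul, phi_psi w]
    rw [h3, h2, h1]
    simp only [F]
    rw [mul_inv_cancel_left₀ hne]
    rw [phi_psi w]
    rw [Finset.sum_attach (S.erase (m (psi w))) (fun g => x.coeff g *
      (if h : g⁻¹ * w ∈ T then uT ⟨g⁻¹ * w, h⟩ else 0))]
    exact sub_add_cancel _ _
  · have hv0 : v w = 0 := by
      by_contra h
      exact ht (subset_clos _ _ _ ⟨w, h, rfl⟩)
    rw [hv0]
    apply Finset.sum_eq_zero
    intro g hg
    have : g⁻¹ * w ∉ T := by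
      intro h
      apply ht
      have := step_clos (i := g) (S := (S : Set G)) (f := f) hg h
      simpa [hf] using this
    have h0 : u (g⁻¹ * w) = 0 := by simp [u, this]
    rw [h0, mul_zero]

end Surj

section Two

variable [LinearOrder G] [MulLeftStrictMono G]

theorem act_isWF (x : MonoidAlgebra K G) {u : G → K} (hu : (Function.support u).IsWF) :
    (Function.support (act K G x u)).IsWF := by
  classical
  have h1 : Function.support (act K G x u) ⊆
      ⋃ g ∈ x.coeff.support, (fun w => g * w) '' Function.support u := by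
    intro w hw
    rw [Function.mem_support, act_apply] at hw
    obtain ⟨g, hg, hne⟩ := Finset.exists_ne_zero_of_sum_ne_zero hw
    simp only [Set.mem_iUnion]
    exact ⟨g, hg, g⁻¹ * w, right_ne_zero_of_mul hne, mul_inv_cancel_left g w⟩
  refine Set.IsWF.mono ?_ h1
  rw [Finset.isWF_bUnion]
  intro g _
  have hp : (Function.support u).IsPWO := Set.isPWO_iff_isWF.mpr hu
  have hst : StrictMono (fun w : G => g * w) := fun a b hab => mul_lt_mul_right hab g
  exact (hp.image_of_monotone hst.monotone).isWF

/-- the delta function at the identity -/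
noncomputable def delta (K : Type*) [DivisionRing K] (G : Type*) [Group G] : G → K :=
  open Classical in fun g => if g = 1 then 1 else 0

omit [LinearOrder G] [MulLeftStrictMono G] in
theorem delta_ne_zero : delta K G ≠ 0 := by
  intro h
  have := congrFun h 1
  simp [delta] at this

omit [MulLeftStrictMono G] in
theorem delta_isWF : (Function.support (delta K G)).IsWF := by
  classical
  refine (Set.isWF_singleton (a := (1 : G))).mono ?_
  intro w hw
  by_contra hne
  apply hw
  have : w ≠ 1 := hne
  simp [delta, this]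

omit [LinearOrder G] [MulLeftStrictMono G] in
theorem act_mul' (p q : MonoidAlgebra K G) (u : G → K) :
    act K G (p * q) u = act K G p (act K G q u) := by
  rw [map_mul]; rfl

omit [LinearOrder G] [MulLeftStrictMono G] in
theorem act_add' (p q : MonoidAlgebra K G) (u : G → K) :
    act K G (p + q) u = act K G p u + act K G q u := by
  rw [map_add]; rfl

omit [LinearOrder G] [MulLeftStrictMono G] in
theorem act_one' (u : G → K) : act K G 1 u = u := by
  rw [map_one]; rfl

omit [LinearOrder G] [MulLeftStrictMono G] in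
theorem act_zero' (u : G → K) : act K G 0 u = 0 := by
  rw [map_zero]; rfl

theorem eq_zero_of_mul_eq_zero' {x y : MonoidAlgebra K G} (h : x * y = 0) : x = 0 ∨ y = 0 := by
  by_contra hcon
  rw [not_or] at hcon
  obtain ⟨hx, hy⟩ := hcon
  obtain ⟨m, hm, hym⟩ := exists_act_eq hy (delta_isWF (K := K) (G := G))
  have h1 : act K G x (act K G y m) = 0 := by
    rw [← act_mul', h, act_zero']
  rw [hym] at h1
  exact act_ne_zero hx delta_ne_zero delta_isWF h1

theorem act_injOn {x : MonoidAlgebra K G} (hx : x ≠ 0) {u v : G → K}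
    (hu : (Function.support u).IsWF) (hv : (Function.support v).IsWF)
    (h : act K G x u = act K G x v) : u = v := by
  by_contra hne
  have h1 : act K G x (u - v) = 0 := by rw [map_sub, h, sub_self]
  refine act_ne_zero hx (sub_ne_zero.mpr hne) ?_ h1
  exact (hu.union hv).mono (Function.support_sub u v)

theorem two_aux {a b c d a' b' c' d' x y : MonoidAlgebra K G}
    (h00 : a * a' + b * c' = 1) (h01 : a * b' + b * d' = 0) (h11 : c * b' + d * d' = 1)
    (hx : a * x + b * y = 0) (hy : c * x + d * y = 0) : x = 0 ∧ y = 0 := by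
  have hne1 : (1 : MonoidAlgebra K G) ≠ 0 := one_ne_zero
  have hy0 : y = 0 := by
    by_contra hyne
    by_cases ha : a = 0
    · subst ha
      rw [zero_mul, zero_add] at h00 h01 hx
      have hb : b ≠ 0 := by
        rintro rfl
        rw [zero_mul] at h00
        exact hne1 h00.symm
      rcases eq_zero_of_mul_eq_zero' hx with h | h
      · exact hb h
      · exact hyne h
    · have hdl := delta_isWF (K := K) (G := G)
      obtain ⟨m, hm, hym⟩ := exists_act_eq hyne (act_isWF d' hdl)
      have e1 : act K G a (act K G x m) = act K G a (act K G b' (delta K G)) := by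
        have e2 : act K G a (act K G x m) + act K G b (act K G y m) = 0 := by
          rw [← act_mul', ← act_mul', ← act_add', hx, act_zero']
        have e3 : act K G a (act K G b' (delta K G)) + act K G b (act K G d' (delta K G)) = 0 := by
          rw [← act_mul', ← act_mul', ← act_add', h01, act_zero']
        rw [hym] at e2
        exact add_right_cancel (e2.trans e3.symm)
      have e4 := act_injOn ha (act_isWF x hm) (act_isWF b' hdl) e1
      have e5 : act K G c (act K G x m) + act K G d (act K G y m) = 0 := by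
        rw [← act_mul', ← act_mul', ← act_add', hy, act_zero']
      rw [e4, hym, ← act_mul', ← act_mul', ← act_add', h11, act_one'] at e5
      exact delta_ne_zero e5
  subst hy0
  refine ⟨?_, rfl⟩
  by_contra hxne
  rw [mul_zero, add_zero] at hx hy
  have ha : a = 0 := (eq_zero_of_mul_eq_zero' hx).resolve_right hxne
  have hc : c = 0 := (eq_zero_of_mul_eq_zero' hy).resolve_right hxne
  subst ha hc
  rw [zero_mul, zero_add] at h00 h01 h11
  have hb : b ≠ 0 := by
    rintro rfl
    rw [zero_mul] at h00
    exact hne1 h00.symm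
  have hd : d' = 0 := (eq_zero_of_mul_eq_zero' h01).resolve_left hb
  rw [hd, mul_zero] at h11
  exact hne1 h11.symm

theorem isDedekindFinite_two :
    IsDedekindFiniteMonoid (Matrix (Fin 2) (Fin 2) (MonoidAlgebra K G)) where
  mul_eq_one_symm := by
    intro A B h
    have key : ∀ j : Fin 2, (1 - B * A) 0 j = 0 ∧ (1 - B * A) 1 j = 0 := by
      intro j
      have hF : A * (1 - B * A) = 0 := by
        rw [mul_sub, mul_one, ← mul_assoc, h, one_mul, sub_self]
      have e : ∀ i j : Fin 2, A i 0 * B 0 j + A i 1 * B 1 j = (1 : Matrix (Fin 2) (Fin 2) _) i j := by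
        intro i j
        have := congrFun (congrFun h i) j
        rwa [Matrix.mul_apply, Fin.sum_univ_two] at this
      have f : ∀ i j : Fin 2, A i 0 * (1 - B * A) 0 j + A i 1 * (1 - B * A) 1 j = 0 := by
        intro i j
        have := congrFun (congrFun hF i) j
        rwa [Matrix.mul_apply, Fin.sum_univ_two] at this
      exact two_aux (by simpa using e 0 0) (by simpa using e 0 1) (by simpa using e 1 1)
        (f 0 j) (f 1 j)
    have h0 : 1 - B * A = 0 := by
      ext1 i j
      fin_cases i
      · exact (key j).1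
      · exact (key j).2
    exact (sub_eq_zero.mp h0).symm

end Two

end Vale.Agent.P194.LeftOrd
end
end

section

section

namespace Vale.Agent.P194.LeftOrd

open MonoidAlgebra

section Induced

variable (K : Type*) [DivisionRing K] {Γ : Type*} [Group Γ] (H : Subgroup Γ)
  [DecidableEq (Γ ⧸ H)]

open Classical in
/-- Entries of the induced matrix of `γ`. -/
noncomputable def ent (γ : Γ) (i j : Γ ⧸ H) : MonoidAlgebra K H :=
  if h : i.out⁻¹ * γ * j.out ∈ H then single ⟨i.out⁻¹ * γ * j.out, h⟩ 1 else 0

omit [DecidableEq (Γ ⧸ H)] in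
theorem mem_iff_out (γ : Γ) (i j : Γ ⧸ H) :
    i.out⁻¹ * γ * j.out ∈ H ↔ i = QuotientGroup.mk (γ * j.out) := by
  conv_rhs => rw [← QuotientGroup.out_eq' i]
  rw [QuotientGroup.eq, mul_assoc]

theorem ent_one (i j : Γ ⧸ H) : ent K H 1 i j = (1 : Matrix (Γ ⧸ H) (Γ ⧸ H) (MonoidAlgebra K H)) i j := by
  classical
  unfold ent
  by_cases hij : i = j
  · subst hij
    have h : i.out⁻¹ * 1 * i.out ∈ H := by simp
    rw [dif_pos h, Matrix.one_apply_eq, one_def]
    congr 1
    apply Subtype.ext
    simp
  · have h : ¬ i.out⁻¹ * 1 * j.out ∈ H := by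
      rw [mem_iff_out]
      simpa using hij
    rw [dif_neg h, Matrix.one_apply_ne hij]

variable [Fintype (Γ ⧸ H)]

omit [DecidableEq (Γ ⧸ H)] in
theorem ent_mul (γ δ : Γ) (i k : Γ ⧸ H) :
    ent K H (γ * δ) i k = ∑ j, ent K H γ i j * ent K H δ j k := by
  classical
  rw [Finset.sum_eq_single (QuotientGroup.mk (δ * k.out) : Γ ⧸ H)]
  · set j : Γ ⧸ H := QuotientGroup.mk (δ * k.out) with hj
    have h2 : j.out⁻¹ * δ * k.out ∈ H := (mem_iff_out H δ j k).mpr hj
    unfold ent
    rw [dif_pos h2]
    by_cases h1 : i.out⁻¹ * γ * j.out ∈ H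
    · have h3 : i.out⁻¹ * (γ * δ) * k.out ∈ H := by
        have := H.mul_mem h1 h2
        have e : i.out⁻¹ * γ * j.out * (j.out⁻¹ * δ * k.out) = i.out⁻¹ * (γ * δ) * k.out := by
          group
        rwa [e] at this
      rw [dif_pos h1, dif_pos h3, single_mul_single, one_mul]
      congr 1
      apply Subtype.ext
      simp only [Subgroup.coe_mul]
      group
    · have h3 : ¬ i.out⁻¹ * (γ * δ) * k.out ∈ H := by
        intro h
        apply h1
        have := H.mul_mem h (H.inv_mem h2)
        have e : i.out⁻¹ * (γ * δ) * k.out * (j.out⁻¹ * δ * k.out)⁻¹ = i.out⁻¹ * γ * j.out := by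
          group
        rwa [e] at this
      rw [dif_neg h1, dif_neg h3, zero_mul]
  · intro j _ hj
    have h2 : ¬ j.out⁻¹ * δ * k.out ∈ H := fun h => hj ((mem_iff_out H δ j k).mp h)
    have : ent K H δ j k = 0 := dif_neg h2
    rw [this, mul_zero]
  · intro h
    exact absurd (Finset.mem_univ _) h

/-- The induced representation on group elements. -/
noncomputable def indHom : Γ →* Matrix (Γ ⧸ H) (Γ ⧸ H) (MonoidAlgebra K H) where
  toFun γ := Matrix.of (ent K H γ)
  map_one' := by
    ext1 i j
    exact ent_one K H i j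
  map_mul' γ δ := by
    ext1 i j
    rw [Matrix.mul_apply]
    exact ent_mul K H γ δ i j

/-- Scalars of the induced representation. -/
noncomputable def indScal : K →+* Matrix (Γ ⧸ H) (Γ ⧸ H) (MonoidAlgebra K H) :=
  (Matrix.scalar (Γ ⧸ H)).comp (singleOneRingHom)

theorem ind_commute (c : K) (γ : Γ) : Commute (indScal K H c) (indHom K H γ) := by
  change Matrix.diagonal (fun _ => (single 1 c : MonoidAlgebra K H)) * Matrix.of (ent K H γ) =
    Matrix.of (ent K H γ) * Matrix.diagonal (fun _ => (single 1 c : MonoidAlgebra K H))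
  ext1 i j
  rw [Matrix.diagonal_mul, Matrix.mul_diagonal, Matrix.of_apply]
  unfold ent
  split_ifs with h
  · rw [single_mul_single, single_mul_single, one_mul, mul_one, one_mul, mul_one]
  · rw [mul_zero, zero_mul]

/-- The induced ring homomorphism. -/
noncomputable def ind : MonoidAlgebra K Γ →+* Matrix (Γ ⧸ H) (Γ ⧸ H) (MonoidAlgebra K H) :=
  liftNCRingHom (indScal K H) (indHom K H) (ind_commute K H)

theorem ind_single_apply (γ : Γ) (c : K) (i j : Γ ⧸ H) :
    ind K H (single γ c) i j = single 1 c * ent K H γ i j := by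
  classical
  unfold ind
  rw [liftNCRingHom_single]
  exact Matrix.diagonal_mul (fun _ => (single 1 c : MonoidAlgebra K H))
    (Matrix.of (ent K H γ)) i j

theorem ind_coeff (a : MonoidAlgebra K Γ) (i j : Γ ⧸ H) (h : H) :
    (ind K H a i j).coeff h = a.coeff (i.out * h * j.out⁻¹) := by
  classical
  induction a using induction_linear with
  | zero => simp
  | add f g hf hg =>
    rw [map_add, Matrix.add_apply, coeff_add, coeff_add, Finsupp.add_apply, Finsupp.add_apply,
      hf, hg]
  | single γ c =>
    rw [ind_single_apply]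
    unfold ent
    split_ifs with hm
    · rw [single_mul_single, one_mul, mul_one, coeff_single, coeff_single, Finsupp.single_apply,
        Finsupp.single_apply]
      congr 1
      rw [eq_iff_iff]
      constructor
      · rintro rfl
        group
      · intro e
        apply Subtype.ext
        simp only
        rw [e]
        group
    · rw [mul_zero, coeff_single, Finsupp.single_apply, if_neg]
      · simp
      · intro e
        apply hm
        rw [e]
        have : i.out⁻¹ * (i.out * (h : Γ) * j.out⁻¹) * j.out = h := by group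
        rw [this]
        exact h.2

theorem ind_injective : Function.Injective (ind K H) := by
  rw [injective_iff_map_eq_zero]
  intro a ha
  ext γ
  have h1 := ind_coeff K H a (QuotientGroup.mk γ) (QuotientGroup.mk 1)
    ⟨(QuotientGroup.mk γ : Γ ⧸ H).out⁻¹ * γ * (QuotientGroup.mk 1 : Γ ⧸ H).out, by
      rw [mem_iff_out, QuotientGroup.eq]
      have := QuotientGroup.out_eq' (QuotientGroup.mk 1 : Γ ⧸ H)
      rw [QuotientGroup.eq, mul_one] at this
      have h2 := H.inv_mem this
      simpa [mul_assoc] using h2⟩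
  rw [ha] at h1
  have e : (QuotientGroup.mk γ : Γ ⧸ H).out *
      ((QuotientGroup.mk γ : Γ ⧸ H).out⁻¹ * γ * (QuotientGroup.mk 1 : Γ ⧸ H).out) *
      ((QuotientGroup.mk 1 : Γ ⧸ H).out)⁻¹ = γ := by group
  simp only at h1
  rw [e] at h1
  simpa using h1.symm

end Induced

end Vale.Agent.P194.LeftOrd
end
end

section

section

namespace Vale.Agent.P194.LeftOrd

open MonoidAlgebra

universe u v

theorem exists_wf_index (α : Type u) :
    ∃ (ι : Type u) (_ : LinearOrder ι) (_ : WellFoundedLT ι) (e : ι → α),
      Function.Surjective e := by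
  obtain ⟨l, h⟩ := exists_wellFoundedLT α
  exact ⟨α, l, h, id, Function.surjective_id⟩

/-- A group acting faithfully on a linearly ordered set by strictly monotone maps is
left-orderable. -/
theorem exists_leftOrder {H : Type v} [Group H] {X : Type u} [LinearOrder X]
    (φ : H →* Equiv.Perm X) (hinj : Function.Injective φ) (hmono : ∀ h, StrictMono (φ h)) :
    ∃ _ : LinearOrder H, MulLeftStrictMono H := by
  obtain ⟨ι, l, w, e, he⟩ := exists_wf_index X
  let Φ : H → Lex (ι → X) := fun h => toLex (fun i => φ h (e i))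
  have hΦ : Function.Injective Φ := by
    intro a b hab
    apply hinj
    apply Equiv.ext
    intro x
    obtain ⟨i, rfl⟩ := he x
    exact congrFun (toLex.injective hab) i
  let lo : LinearOrder H := LinearOrder.lift' Φ hΦ
  refine ⟨lo, ⟨?_⟩⟩
  intro a b c hbc
  have h1 : Φ b < Φ c := hbc
  change Φ (a * b) < Φ (a * c)
  obtain ⟨i, hi, hlt⟩ := h1
  refine ⟨i, ?_, ?_⟩
  · intro j hj
    have h2 : φ b (e j) = φ c (e j) := hi j hj
    change φ (a * b) (e j) = φ (a * c) (e j)
    rw [map_mul, map_mul, Equiv.Perm.mul_apply, Equiv.Perm.mul_apply, h2]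
  · have h2 : φ b (e i) < φ c (e i) := hlt
    change φ (a * b) (e i) < φ (a * c) (e i)
    rw [map_mul, map_mul, Equiv.Perm.mul_apply, Equiv.Perm.mul_apply]
    exact hmono a h2

theorem dedekind_of_matrix_two {K : Type*} [DivisionRing K] {G : Type*} [Group G]
    (h : IsDedekindFiniteMonoid (Matrix (Fin 2) (Fin 2) (MonoidAlgebra K G))) :
    IsDedekindFiniteMonoid (MonoidAlgebra K G) := by
  refine IsDedekindFiniteMonoid.of_injective (Matrix.scalar (Fin 2)) ?_
  intro a b hab
  have := congrFun (congrFun hab 0) 0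
  simpa using this

/-- If `Γ` has a left-orderable subgroup of index two, then `K[Γ]` is directly finite. -/
theorem dedekind_of_index_two (K : Type*) [DivisionRing K] {Γ : Type*} [Group Γ]
    (H : Subgroup Γ) (hH : H.index = 2) (ho : ∃ _ : LinearOrder H, MulLeftStrictMono H) :
    IsDedekindFiniteMonoid (MonoidAlgebra K Γ) := by
  classical
  obtain ⟨lo, hl⟩ := ho
  have hc : Nat.card (Γ ⧸ H) = 2 := hH
  have : Finite (Γ ⧸ H) := Nat.finite_of_card_ne_zero (by rw [hc]; norm_num)
  have : Fintype (Γ ⧸ H) := Fintype.ofFinite _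
  have e : (Γ ⧸ H) ≃ Fin 2 := Fintype.equivFinOfCardEq (by rw [← Nat.card_eq_fintype_card, hc])
  have h2 : IsDedekindFiniteMonoid (Matrix (Fin 2) (Fin 2) (MonoidAlgebra K H)) :=
    isDedekindFinite_two
  refine IsDedekindFiniteMonoid.of_injective
    ((Matrix.reindexRingEquiv (MonoidAlgebra K H) e).toRingHom.comp (ind K H)) ?_
  exact (Matrix.reindexRingEquiv (MonoidAlgebra K H) e).injective.comp (ind_injective K H)

/-- Groups acting faithfully on a linearly ordered set, each element preserving or reversing the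
order. -/
theorem dedekind_of_action (K : Type*) [DivisionRing K] {Γ : Type*} [Group Γ]
    {X : Type*} [LinearOrder X] (φ : Γ →* Equiv.Perm X) (hinj : Function.Injective φ)
    (hφ : ∀ g, StrictMono (φ g) ∨ StrictAnti (φ g)) :
    IsDedekindFiniteMonoid (MonoidAlgebra K Γ) := by
  classical
  let H : Subgroup Γ :=
    { carrier := {g | StrictMono (φ g)}
      mul_mem' := by
        intro a b ha hb
        change StrictMono (φ (a * b))
        rw [map_mul]
        exact ha.comp hb
      one_mem' := by
        change StrictMono (φ 1)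
        rw [map_one]
        exact strictMono_id
      inv_mem' := by
        intro a ha
        change StrictMono (φ a⁻¹)
        have ha' : StrictMono (φ a) := ha
        rw [map_inv]
        intro x y hxy
        by_contra hcon
        push Not at hcon
        have h1 := ha'.monotone hcon
        rw [Equiv.Perm.inv_def, Equiv.apply_symm_apply, Equiv.apply_symm_apply] at h1
        exact absurd hxy (not_lt.mpr h1) }
  have hmem : ∀ g, g ∈ H ↔ StrictMono (φ g) := fun g => Iff.rfl
  by_cases htop : H = ⊤
  · obtain ⟨lo, hl⟩ := exists_leftOrder φ hinj (fun h => by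
      rw [← hmem, htop]; exact Subgroup.mem_top h)
    exact dedekind_of_matrix_two isDedekindFinite_two
  · have hex : ∃ t, t ∉ H := by
      by_contra hcon
      push Not at hcon
      exact htop ((Subgroup.eq_top_iff' H).mpr hcon)
    obtain ⟨t, ht⟩ := hex
    have hanti : ∀ g, g ∉ H → StrictAnti (φ g) := fun g hg => (hφ g).resolve_left hg
    have hnt : ∃ x y : X, x < y := by
      by_contra hcon
      push Not at hcon
      apply ht
      rw [hmem]
      intro x y hxy
      exact absurd hxy (not_lt.mpr (hcon x y))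
    obtain ⟨x, y, hxy⟩ := hnt
    have hidx : H.index = 2 := by
      rw [Subgroup.index_eq_two_iff]
      refine ⟨t, fun b => ?_⟩
      by_cases hb : b ∈ H
      · right
        refine ⟨hb, ?_⟩
        intro hbt
        apply ht
        have := H.mul_mem (H.inv_mem hb) hbt
        rwa [inv_mul_cancel_left] at this
      · left
        refine ⟨?_, hb⟩
        rw [hmem, map_mul]
        exact (hanti b hb).comp (hanti t ht)
    refine dedekind_of_index_two K H hidx ?_
    exact exists_leftOrder (φ.comp H.subtype)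
      (hinj.comp H.subtype_injective) (fun h => h.2)

end Vale.Agent.P194.LeftOrd
end
end

section

section

namespace Vale.Agent.P194

open MonoidAlgebra

section Main

variable {K : Type*} {G : Type*} [Ring K] [Group G]
variable {m n : Type*} [Fintype n]

theorem LocallyPIndicable.of_le {p : ℕ} {N : Subgroup G} (hN : LocallyPIndicable p N)
    (H : Subgroup G) (hH : H ≤ N) (hfg : H.FG) (hne : H ≠ ⊥) :
    ∃ φ : H →* Multiplicative (ZMod p), φ ≠ 1 := by
  have e : H.subgroupOf N ≃* H := Subgroup.subgroupOfEquivOfLe hH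
  have hfg' : (H.subgroupOf N).FG := by
    have h1 : Group.FG H := (Group.fg_iff_subgroup_fg H).2 hfg
    have h2 : Group.FG (H.subgroupOf N) := Group.fg_of_surjective (f := e.symm.toMonoidHom)
      e.symm.surjective
    exact (Group.fg_iff_subgroup_fg _).1 h2
  have hne' : H.subgroupOf N ≠ ⊥ := by
    intro h
    rw [Subgroup.subgroupOf_eq_bot] at h
    exact hne (disjoint_self.1 (h.mono_right hH))
  obtain ⟨φ, hφ⟩ := hN _ hfg' hne'
  refine ⟨φ.comp e.symm.toMonoidHom, ?_⟩
  intro h
  apply hφ
  ext x
  have := DFunLike.congr_fun h (e x)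
  simpa using this

open Classical in
/-- The number of left cosets of `L` that meet `V`. -/
noncomputable def numClasses (V : Finset G) (L : Subgroup G) : ℕ :=
  (V.image (fun g : G => (g : G ⧸ L))).card

theorem cons_aux (p : ℕ) [Fact p.Prime] (hp : (p : K) = 0) (N : Subgroup G)
    (hN : LocallyPIndicable p N) (E : Matrix m n (MonoidAlgebra K G))
    (v : n → MonoidAlgebra K G) (V : Finset G) (hV : ∀ j, (v j).coeff.support ⊆ V)
    (hv : ∀ i, ∑ j, E i j * v j = 0) (k : ℕ) :
    ∀ L ≤ N, Inj E V L → V.card - numClasses V L = k → v = 0 := by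
  classical
  induction k using Nat.strong_induction_on with
  | _ k ih =>
    intro L hL hInj hk
    by_cases hinj : Set.InjOn (fun g : G => (g : G ⧸ L)) (V : Set G)
    · -- all classes are singletons
      have hF : (fun j => cs L (v j)) = 0 := by
        apply hInj
        · intro j x hx
          rw [cs_apply] at hx
          have hx' : x ∈ ((v j).coeff.mapDomain (fun g : G => (g : G ⧸ L))).support :=
            Finsupp.mem_support_iff.2 hx
          obtain ⟨g, hg, rfl⟩ := Finset.mem_image.1 (Finsupp.mapDomain_support hx')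
          exact ⟨g, hV j hg, rfl⟩
        · funext i
          have := congrArg (cs L) (hv i)
          rw [map_sum, map_zero] at this
          simp only [cs_mul] at this
          exact this
      funext j
      ext g
      by_cases hg : g ∈ V
      · have h1 : cs L (v j) (g : G ⧸ L) = 0 := congrFun (congrFun hF j) _
        rw [cs_apply, Finsupp.mapDomain_apply' (V : Set G) _ (hV j) hinj hg] at h1
        simpa using h1
      · have : g ∉ (v j).coeff.support := fun h => hg (hV j h)
        simpa using Finsupp.notMem_support_iff.1 this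
    · -- two elements of `V` in the same class
      let S : Set G := {x | ∃ g ∈ V, ∃ g' ∈ V, (g : G ⧸ L) = g' ∧ x = g⁻¹ * g'}
      have hSfin : S.Finite := by
        have : S ⊆ ((V ×ˢ V).image (fun q : G × G => q.1⁻¹ * q.2) : Set G) := by
          rintro x ⟨g, hg, g', hg', _, rfl⟩
          rw [Finset.mem_coe, Finset.mem_image]
          exact ⟨(g, g'), Finset.mem_product.2 ⟨hg, hg'⟩, rfl⟩
        exact Set.Finite.subset (Finset.finite_toSet _) this
      let H : Subgroup G := Subgroup.closure S
      have hHL : H ≤ L := by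
        rw [Subgroup.closure_le]
        rintro x ⟨g, hg, g', hg', h, rfl⟩
        exact QuotientGroup.eq.1 h
      have hHfg : H.FG := ⟨hSfin.toFinset, by simp [H]⟩
      have hHne : H ≠ ⊥ := by
        intro hbot
        apply hinj
        intro g hg g' hg' h
        have h1 : g⁻¹ * g' ∈ H := Subgroup.subset_closure ⟨g, hg, g', hg', h, rfl⟩
        rw [hbot, Subgroup.mem_bot] at h1
        exact (inv_mul_eq_one.1 h1)
      have hInjH : Inj E V H := by
        apply hInj.mono hHL
        intro g hg g' hg' h
        rw [QuotientGroup.eq]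
        exact Subgroup.subset_closure ⟨g, hg, g', hg', h, rfl⟩
      obtain ⟨φ, hφ⟩ := hN.of_le H (hHL.trans hL) hHfg hHne
      let H' : Subgroup G := φ.ker.map H.subtype
      have hmemH' : ∀ x (hx : x ∈ H), x ∈ H' ↔ φ ⟨x, hx⟩ = 1 := by
        intro x hx
        constructor
        · rintro ⟨y, hy, hyx⟩
          have : y = ⟨x, hx⟩ := Subtype.ext hyx
          rw [← this]
          exact hy
        · intro h
          exact ⟨⟨x, hx⟩, h, rfl⟩
      have hH'H : H' ≤ H := by
        rintro x ⟨y, _, rfl⟩
        exact y.2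
      -- an element of `S` outside `H'`
      have hexS : ∃ s ∈ S, s ∉ H' := by
        by_contra hcon
        push Not at hcon
        apply hφ
        have : H ≤ H' := (Subgroup.closure_le _).2 hcon
        ext x
        have h1 := (hmemH' x.1 x.2).1 (this x.2)
        simpa using h1
      obtain ⟨s, hs, hsH'⟩ := hexS
      have hsH : s ∈ H := Subgroup.subset_closure hs
      have hφs : φ ⟨s, hsH⟩ ≠ 1 := fun h => hsH' ((hmemH' s hsH).2 h)
      have hInjH' : Inj E V H' := by
        refine Inj.step p hp hH'H s hsH ?_ ?_ ?_ hInjH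
        · intro h hh
          have hhH : h ∈ H := hH'H hh
          have hmem : s⁻¹ * h * s ∈ H := H.mul_mem (H.mul_mem (H.inv_mem hsH) hhH) hsH
          rw [hmemH' _ hmem]
          have h1 : φ ⟨h, hhH⟩ = 1 := (hmemH' h hhH).1 hh
          have h2 : (⟨s⁻¹ * h * s, hmem⟩ : H) = (⟨s, hsH⟩ : H)⁻¹ * ⟨h, hhH⟩ * ⟨s, hsH⟩ := rfl
          rw [h2, map_mul, map_mul, map_inv, h1, mul_one, inv_mul_cancel]
        · have hmem : s ^ p ∈ H := H.pow_mem hsH p
          rw [hmemH' _ hmem]
          have h2 : (⟨s ^ p, hmem⟩ : H) = (⟨s, hsH⟩ : H) ^ p := rfl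
          rw [h2, map_pow]
          apply Multiplicative.toAdd.injective
          rw [toAdd_pow, toAdd_one, nsmul_eq_mul, CharP.cast_eq_zero, zero_mul]
        · intro h hh
          set a : ZMod p := Multiplicative.toAdd (φ ⟨s, hsH⟩) with ha
          have ha0 : a ≠ 0 := by
            intro h0
            apply hφs
            apply Multiplicative.toAdd.injective
            rw [toAdd_one]
            exact h0
          set b : ZMod p := Multiplicative.toAdd (φ ⟨h, hh⟩) with hb
          refine ⟨(b * a⁻¹).val, ?_⟩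
          have hmem : (s ^ (b * a⁻¹).val)⁻¹ * h ∈ H :=
            H.mul_mem (H.inv_mem (H.pow_mem hsH _)) hh
          rw [hmemH' _ hmem]
          have h2 : (⟨(s ^ (b * a⁻¹).val)⁻¹ * h, hmem⟩ : H) =
            ((⟨s, hsH⟩ : H) ^ (b * a⁻¹).val)⁻¹ * ⟨h, hh⟩ := rfl
          rw [h2, map_mul, map_inv, map_pow]
          apply Multiplicative.toAdd.injective
          rw [toAdd_mul, toAdd_inv, toAdd_pow, toAdd_one, ← ha, ← hb, nsmul_eq_mul,
            ZMod.natCast_val, ZMod.cast_id', id, mul_assoc, inv_mul_cancel₀ ha0, mul_one]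
          simp
      -- the number of classes increases
      obtain ⟨g, hg, g', hg', hgg', rfl⟩ := hs
      have hcard : numClasses V L < numClasses V H' := by
        unfold numClasses
        have h1 : V.image (fun g : G => (g : G ⧸ L)) =
            (V.image (fun g : G => (g : G ⧸ H'))).image
              (Subgroup.quotientMapOfLE (hH'H.trans hHL)) := by
          rw [Finset.image_image]
          rfl
        rw [h1]
        apply lt_of_le_of_ne Finset.card_image_le
        intro heq
        rw [Finset.card_image_iff] at heq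
        apply hsH'
        have h2 := heq (Finset.mem_coe.2 (Finset.mem_image_of_mem _ hg))
          (Finset.mem_coe.2 (Finset.mem_image_of_mem _ hg')) hgg'
        exact QuotientGroup.eq.1 h2
      have hle : numClasses V H' ≤ V.card := Finset.card_image_le
      refine ih (V.card - numClasses V H') ?_ H'
        ((hH'H.trans hHL).trans hL) hInjH' rfl
      omega

/-- **Conservativity.** -/
theorem conservative (p : ℕ) [Fact p.Prime] (hp : (p : K) = 0) (N : Subgroup G)
    (hN : LocallyPIndicable p N) (E : Matrix m n (MonoidAlgebra K G))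
    (hE : ∀ V, Inj E V N)
    (v : n → MonoidAlgebra K G)
    (hv : ∀ i, ∑ j, E i j * v j = 0) : v = 0 := by
  classical
  refine cons_aux p hp N hN E v (Finset.univ.biUnion fun j => (v j).coeff.support) ?_ hv _ N
    le_rfl (hE _) rfl
  intro j
  exact Finset.subset_biUnion_of_mem (fun j => (v j).coeff.support) (Finset.mem_univ j)

/-- The action on functions on `G ⧸ N` factors through the group ring of `G ⧸ N`. -/
theorem act_quot (N : Subgroup G) [N.Normal] (a : MonoidAlgebra K G) (F : G ⧸ N → K) :
    act K G (G ⧸ N) a F =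
      act K (G ⧸ N) (G ⧸ N) (mapDomainRingHom K (QuotientGroup.mk' N) a) F := by
  have key : ((AddMonoidHom.eval F).comp
      ((act K G (G ⧸ N) : MonoidAlgebra K G →+* AddMonoid.End (G ⧸ N → K)) :
        MonoidAlgebra K G →+ AddMonoid.End (G ⧸ N → K))) =
      ((AddMonoidHom.eval F).comp
      (((act K (G ⧸ N) (G ⧸ N) : MonoidAlgebra K (G ⧸ N) →+* AddMonoid.End (G ⧸ N → K)) :
        MonoidAlgebra K (G ⧸ N) →+ AddMonoid.End (G ⧸ N → K)).comp
        ((mapDomainRingHom K (QuotientGroup.mk' N) : MonoidAlgebra K G →+* _) :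
          MonoidAlgebra K G →+ MonoidAlgebra K (G ⧸ N)))) := by
    apply MonoidAlgebra.addMonoidHom_ext
    intro g k
    funext x
    change act K G (G ⧸ N) (single g k) F x =
      act K (G ⧸ N) (G ⧸ N) (mapDomainRingHom K (QuotientGroup.mk' N) (single g k)) F x
    rw [act_single]
    have h1 : mapDomainRingHom K (QuotientGroup.mk' N) (single g k) =
      single (QuotientGroup.mk' N g) k := by simp
    rw [h1, act_single]
    congr 2
  exact DFunLike.congr_fun key a

theorem mact_quot (N : Subgroup G) [N.Normal] (E : Matrix m n (MonoidAlgebra K G))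
    (F : n → G ⧸ N → K) :
    mact E F = mact (E.map (mapDomainRingHom K (QuotientGroup.mk' N))) F := by
  funext i
  simp only [mact_apply, act_quot, Matrix.map_apply]

/-- **Extension theorem**, for matrices of a fixed size. -/
theorem ext_matrix (p : ℕ) [Fact p.Prime] (hp : (p : K) = 0) (N : Subgroup G) [N.Normal]
    (hN : LocallyPIndicable p N) [DecidableEq n]
    (hQ : ∀ A B : Matrix n n (MonoidAlgebra K (G ⧸ N)), A * B = 1 → B * A = 1)
    (A B : Matrix n n (MonoidAlgebra K G)) (hAB : A * B = 1) : B * A = 1 := by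
  set q := mapDomainRingHom K (QuotientGroup.mk' N) with hq
  have h1 : (A.map q) * (B.map q) = 1 := by
    rw [← Matrix.map_mul, hAB]
    exact Matrix.map_one q (map_zero q) (map_one q)
  have h2 : (B * A).map q = 1 := by
    rw [Matrix.map_mul]
    exact hQ _ _ h1
  have h3 : ∀ V, Inj (B * A) V N := by
    intro V F _ hF
    rw [mact_quot, ← hq, h2, mact_one] at hF
    exact hF
  have h4 : (B * A) * (1 - B * A) = 0 := by
    have : B * A * (B * A) = B * A := by
      rw [mul_assoc, ← mul_assoc A, hAB, one_mul]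
    rw [mul_sub, mul_one, this, sub_self]
  have h5 : 1 - B * A = 0 := by
    apply Matrix.ext
    intro i j
    have h6 := conservative p hp N hN (B * A) h3 (fun i => (1 - B * A) i j) (by
      intro i
      have := congrFun (congrFun h4 i) j
      rw [Matrix.mul_apply] at this
      exact this)
    exact congrFun h6 i
  exact (sub_eq_zero.1 h5).symm

theorem ext_directlyFinite (p : ℕ) [Fact p.Prime] (hp : (p : K) = 0) (N : Subgroup G) [N.Normal]
    (hN : LocallyPIndicable p N) [IsDedekindFiniteMonoid (MonoidAlgebra K (G ⧸ N))] :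
    IsDedekindFiniteMonoid (MonoidAlgebra K G) := by
  refine ⟨fun {a b} hab => ?_⟩
  let A : Matrix Unit Unit (MonoidAlgebra K G) := fun _ _ => a
  let B : Matrix Unit Unit (MonoidAlgebra K G) := fun _ _ => b
  have h1 : A * B = 1 := by
    apply Matrix.ext
    intro i j
    rw [Matrix.mul_apply]
    simpa [A, B] using hab
  have h2 := ext_matrix p hp N hN (n := Unit) (by
    intro A B hAB
    apply Matrix.ext
    intro i j
    have h3 := congrFun (congrFun hAB i) j
    rw [Matrix.mul_apply] at h3 ⊢
    simp only [Finset.univ_unique, Finset.sum_singleton, Matrix.one_apply, if_true,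
      Subsingleton.elim i j, Subsingleton.elim default j] at h3 ⊢
    exact mul_eq_one_symm h3) A B h1
  have h3 := congrFun (congrFun h2 ()) ()
  rw [Matrix.mul_apply] at h3
  simpa [A, B] using h3

theorem ext_stablyFinite (p : ℕ) [Fact p.Prime] (hp : (p : K) = 0) (N : Subgroup G) [N.Normal]
    (hN : LocallyPIndicable p N) [IsStablyFiniteRing (MonoidAlgebra K (G ⧸ N))] :
    IsStablyFiniteRing (MonoidAlgebra K G) := by
  refine ⟨fun k => ⟨fun {A B} hAB => ?_⟩⟩
  exact ext_matrix p hp N hN (fun A B h => mul_eq_one_symm h) A B hAB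

end Main

end Vale.Agent.P194
end
end

section

section

/-! Abelian groups without torsion prime to `p` are locally `p`-indicable. -/

namespace Vale.Agent.P194

theorem exists_hom_zmod (p : ℕ) [Fact p.Prime] (A : Type*) [AddCommGroup A] [Module.Finite ℤ A]
    (hA : ∀ x : A, ∀ q : ℕ, q.Prime → q ≠ p → q • x = 0 → x = 0) (hne : ∃ x : A, x ≠ 0) :
    ∃ φ : A →+ ZMod p, φ ≠ 0 := by
  classical
  let I : Ideal ℤ := Ideal.span {(p : ℤ)}
  have hpp : p.Prime := Fact.out
  have hI : I.IsMaximal := PrincipalIdealRing.isMaximal_of_irreducible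
    (Nat.prime_iff_prime_int.1 hpp).irreducible
  by_cases h : (⊤ : Submodule ℤ A) ≤ I • ⊤
  · exfalso
    obtain ⟨r, hr, hrn⟩ := Submodule.exists_sub_one_mem_and_smul_eq_zero_of_fg_of_le_smul I
      (⊤ : Submodule ℤ A) Module.Finite.fg_top h
    obtain ⟨k, hk⟩ := Ideal.mem_span_singleton'.1 hr
    obtain ⟨x, hx⟩ := hne
    have hpr : ¬ (p : ℤ) ∣ r := by
      intro hd
      have h1 : (p : ℤ) ∣ 1 := by
        have : (1 : ℤ) = r - k * p := by rw [hk]; ring
        rw [this]
        exact dvd_sub hd (dvd_mul_left _ _)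
      have h2 := (Int.natAbs_dvd_natAbs.2 h1)
      simp only [Int.natAbs_natCast, Int.natAbs_one, Nat.dvd_one] at h2
      exact hpp.one_lt.ne' h2
    have hr0 : r ≠ 0 := fun h0 => hpr (h0 ▸ dvd_zero _)
    have hrx : r.natAbs • x = 0 := by
      have h1 := hrn x trivial
      rcases Int.natAbs_eq r with h2 | h2
      · rw [← natCast_zsmul, ← h2]
        exact h1
      · rw [← natCast_zsmul, ← neg_eq_zero, ← neg_zsmul, ← h2]
        exact h1
    have hord : addOrderOf x ∣ r.natAbs := addOrderOf_dvd_of_nsmul_eq_zero hrx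
    have hord0 : addOrderOf x ≠ 0 := by
      intro h0
      rw [h0, zero_dvd_iff, Int.natAbs_eq_zero] at hord
      exact hr0 hord
    have hord1 : addOrderOf x ≠ 1 := fun h1 => hx (AddMonoid.addOrderOf_eq_one_iff.1 h1)
    obtain ⟨q, hq, hqd⟩ := Nat.exists_prime_and_dvd hord1
    have hqp : q ≠ p := by
      rintro rfl
      apply hpr
      exact Int.natCast_dvd.2 (hqd.trans hord)
    obtain ⟨c, hc⟩ := hqd
    have h1 : c • x = 0 := by
      apply hA _ q hq hqp
      rw [← mul_nsmul', ← hc]
      exact addOrderOf_nsmul_eq_zero x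
    have h2 : addOrderOf x ∣ c := addOrderOf_dvd_of_nsmul_eq_zero h1
    have hc0 : 0 < c := by
      rcases Nat.eq_zero_or_pos c with h3 | h3
      · rw [h3, mul_zero] at hc
        exact absurd hc hord0
      · exact h3
    have h3 := Nat.le_of_dvd hc0 h2
    rw [hc] at h3
    have := hq.two_le
    nlinarith
  · rw [SetLike.le_def] at h
    push Not at h
    obtain ⟨v, -, hv⟩ := h
    let _ : Field (ℤ ⧸ I) := Ideal.Quotient.field I
    have h1 : (Submodule.Quotient.mk v : A ⧸ (I • ⊤ : Submodule ℤ A)) ≠ 0 := by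
      intro h0
      exact hv ((Submodule.Quotient.mk_eq_zero _).1 h0)
    have h2 := (Module.forall_dual_apply_eq_zero_iff (ℤ ⧸ I)
      (Submodule.Quotient.mk v : A ⧸ (I • ⊤ : Submodule ℤ A))).not.2 h1
    push Not at h2
    obtain ⟨f, hf⟩ := h2
    let e : ℤ ⧸ I ≃+* ZMod p := Int.quotientSpanNatEquivZMod p
    refine ⟨(e : ℤ ⧸ I →+ ZMod p).comp (f.toAddMonoidHom.comp
      (Submodule.mkQ (I • ⊤ : Submodule ℤ A)).toAddMonoidHom), fun h0 => ?_⟩
    have h3 := congrArg (fun F : A →+ ZMod p => F v) h0
    apply hf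
    apply e.injective
    rw [map_zero]
    exact h3

theorem lpi_of_comm (p : ℕ) [Fact p.Prime] (Z : Type*) [Group Z] (hc : ∀ x y : Z, x * y = y * x)
    (hZ : ∀ x : Z, ∀ q : ℕ, q.Prime → q ≠ p → x ^ q = 1 → x = 1) : LocallyPIndicable p Z := by
  intro H hH hne
  let _ : CommGroup H := { (inferInstance : Group H) with
    mul_comm := fun x y => Subtype.ext (hc x y) }
  have hfg : Group.FG H := (Group.fg_iff_subgroup_fg H).2 hH
  have : AddGroup.FG (Additive H) := AddGroup.fg_iff_mul_fg.2 hfg
  have : Module.Finite ℤ (Additive H) := Module.Finite.iff_addGroup_fg.2 inferInstance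
  obtain ⟨φ, hφ⟩ := exists_hom_zmod p (Additive H) (by
    intro x q hq hqp hx
    have h1 : (x.toMul : H) ^ q = 1 := hx
    have h2 := hZ (x.toMul : Z) q hq hqp (by exact_mod_cast congrArg Subtype.val h1)
    exact Subtype.ext h2) (by
    obtain ⟨x, hx⟩ := (Subgroup.ne_bot_iff_exists_ne_one).1 hne
    exact ⟨Additive.ofMul x, fun h => hx h⟩)
  refine ⟨AddMonoidHom.toMultiplicativeRight φ, fun h => hφ ?_⟩
  ext x
  exact congrArg (fun F : H →* Multiplicative (ZMod p) => F x) h

end Vale.Agent.P194
end
end

section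

section

/-! Extensions with finitely generated residually finite kernel. -/

namespace Vale.Agent.P194

open MonoidAlgebra

variable {K : Type*} [Ring K]

theorem sf_of_local {G : Type*} [Group G]
    (hG : ∀ F : Finset G, ∃ (Q : Type*) (_ : Group Q) (θ : G → Q), Set.InjOn θ F ∧
      (∀ x ∈ F, ∀ y ∈ F, θ (x * y) = θ x * θ y) ∧ IsStablyFiniteRing (MonoidAlgebra K Q)) :
    IsStablyFiniteRing (MonoidAlgebra K G) := by
  refine ⟨fun k => ⟨fun {A B} hAB => ?_⟩⟩
  apply localEmb_matrix _ A B hAB
  intro F
  obtain ⟨Q, _, θ, h1, h2, h3⟩ := hG F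
  exact ⟨Q, _, θ, h1, h2, fun A B h => mul_eq_one_symm h⟩

theorem sf_of_injective {G Q : Type*} [Group G] [Group Q] (φ : G →* Q)
    (hφ : Function.Injective φ) [IsStablyFiniteRing (MonoidAlgebra K Q)] :
    IsStablyFiniteRing (MonoidAlgebra K G) :=
  sf_of_local fun _ => ⟨Q, _, φ, hφ.injOn, fun x _ y _ => map_mul φ x y, inferInstance⟩

theorem sf_of_finiteIndex {G : Type*} [Group G] (H : Subgroup G) [H.FiniteIndex]
    [IsStablyFiniteRing (MonoidAlgebra K H)] : IsStablyFiniteRing (MonoidAlgebra K G) := by
  have : Fintype (G ⧸ H) := H.fintypeQuotientOfFiniteIndex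
  exact ⟨fun k => ⟨fun {A B} hAB => finIndex_stable H A B hAB⟩⟩

theorem sf_prod_finite {Q P : Type*} [Group Q] [Group P] [Finite P]
    [IsStablyFiniteRing (MonoidAlgebra K Q)] : IsStablyFiniteRing (MonoidAlgebra K (Q × P)) := by
  have h1 : (MonoidHom.snd Q P).ker.FiniteIndex := Subgroup.finiteIndex_ker _
  have h2 : IsStablyFiniteRing (MonoidAlgebra K (MonoidHom.snd Q P).ker) := by
    apply sf_of_injective ((MonoidHom.fst Q P).comp (MonoidHom.snd Q P).ker.subtype)
    intro x y hxy
    apply Subtype.ext
    apply Prod.ext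
    · exact hxy
    · exact (x.2 : (x : Q × P).2 = 1).trans (y.2 : (y : Q × P).2 = 1).symm
  exact sf_of_finiteIndex (MonoidHom.snd Q P).ker

/-- Homomorphisms from a finitely generated group to a finite group form a finite set. -/
theorem finite_hom (N F : Type*) [Group N] [Group F] [Finite F] [hN : Group.FG N] :
    Finite (N →* F) := by
  obtain ⟨S, hS⟩ := Group.fg_def.1 hN
  apply Finite.of_injective (β := S → F) (fun φ s => φ s)
  intro φ ψ h
  apply MonoidHom.eq_of_eqOn_dense hS
  intro s hs
  exact congrFun h ⟨s, hs⟩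

variable {G : Type*} [Group G]

/-- `G` acts on the homomorphisms from a normal subgroup to a group. -/
def conjHom (N : Subgroup G) [N.Normal] (F : Type*) [Group F] : G →* Equiv.Perm (N →* F) where
  toFun g :=
    { toFun := fun φ => φ.comp (MulAut.conjNormal g⁻¹ : MulAut N).toMonoidHom
      invFun := fun φ => φ.comp (MulAut.conjNormal g : MulAut N).toMonoidHom
      left_inv := fun φ => by
        ext x
        simp
      right_inv := fun φ => by
        ext x
        simp }
  map_one' := by
    ext φ x
    simp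
  map_mul' g h := by
    ext φ x
    simp

theorem conjHom_apply (N : Subgroup G) [N.Normal] (F : Type*) [Group F] (g : G) (φ : N →* F)
    (x : N) : conjHom N F g φ x = φ (MulAut.conjNormal g⁻¹ x) := rfl

/-- The centre of a normal subgroup, as a subgroup of the whole group. -/
def cen (N : Subgroup G) : Subgroup G := (Subgroup.center N).map N.subtype

theorem mem_cen (N : Subgroup G) (g : G) : g ∈ cen N ↔ g ∈ N ∧ ∀ x ∈ N, x * g = g * x := by
  constructor
  · rintro ⟨z, hz, rfl⟩
    refine ⟨z.2, fun x hx => ?_⟩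
    exact congrArg Subtype.val (Subgroup.mem_center_iff.1 hz ⟨x, hx⟩)
  · rintro ⟨h1, h2⟩
    refine ⟨⟨g, h1⟩, ?_, rfl⟩
    rw [SetLike.mem_coe, Subgroup.mem_center_iff]
    intro x
    exact Subtype.ext (h2 x x.2)

instance cen_normal (N : Subgroup G) [hN : N.Normal] : (cen N).Normal := by
  constructor
  intro z hz g
  rw [mem_cen] at hz ⊢
  refine ⟨hN.conj_mem z hz.1 g, fun x hx => ?_⟩
  have h1 : g⁻¹ * x * g ∈ N := by
    have := hN.conj_mem x hx g⁻¹
    rwa [inv_inv] at this
  have h2 := hz.2 _ h1
  calc x * (g * z * g⁻¹) = g * ((g⁻¹ * x * g) * z) * g⁻¹ := by group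
    _ = g * (z * (g⁻¹ * x * g)) * g⁻¹ := by rw [h2]
    _ = g * z * g⁻¹ * x := by group

theorem cen_le_ker (N : Subgroup G) [N.Normal] (F : Type*) [Group F] :
    cen N ≤ (conjHom N F).ker := by
  intro z hz
  rw [MonoidHom.mem_ker]
  ext φ x
  rw [conjHom_apply]
  have h1 : MulAut.conjNormal z⁻¹ x = x := by
    apply Subtype.ext
    rw [MulAut.conjNormal_apply]
    have h2 := ((mem_cen N z).1 hz).2 x x.2
    rw [inv_inv, mul_assoc, h2, inv_mul_cancel_left]
  rw [h1]
  rfl

/-- Separation of nontrivial elements of `G ⧸ Z(N)`. -/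
theorem separate (N : Subgroup G) [N.Normal] [Group.ResiduallyFinite N] (g : G) (hg : g ∉ cen N) :
    g ∉ N ∨ ∃ L : FiniteIndexNormalSubgroup N, conjHom N (N ⧸ L.toSubgroup) g ≠ 1 := by
  by_cases hgN : g ∈ N
  · right
    rw [mem_cen] at hg
    push Not at hg
    obtain ⟨x, hx, hne⟩ := hg hgN
    let γ : N := ⟨g, hgN⟩
    let ξ : N := ⟨x, hx⟩
    have hne' : γ⁻¹ * ξ * γ ≠ ξ := by
      intro h
      apply hne
      have h1 : g⁻¹ * x * g = x := congrArg Subtype.val h
      calc x * g = g * (g⁻¹ * x * g) := by group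
        _ = g * x := by rw [h1]
    obtain ⟨L, hL⟩ := Group.exists_finiteIndexNormalSubgroup_of_residuallyFinite _ _ hne'
    refine ⟨L, fun h => hL ?_⟩
    have h1 := congrArg (fun e : Equiv.Perm (N →* N ⧸ L.toSubgroup) =>
      e (QuotientGroup.mk' L.toSubgroup) ξ) h
    simp only [conjHom_apply, Equiv.Perm.coe_one, id_eq, QuotientGroup.mk'_apply] at h1
    rw [← h1]
    congr 1
    apply Subtype.ext
    rw [MulAut.conjNormal_apply, inv_inv]
    rfl
  · exact Or.inl hgN

theorem rf_kernel (p : ℕ) [Fact p.Prime] (hp : (p : K) = 0) (N : Subgroup G) [N.Normal]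
    [Group.FG N] [Group.ResiduallyFinite N]
    (hZ : ∀ z ∈ Subgroup.center N, ∀ q : ℕ, q.Prime → q ≠ p → z ^ q = 1 → z = 1)
    [IsStablyFiniteRing (MonoidAlgebra K (G ⧸ N))] : IsStablyFiniteRing (MonoidAlgebra K G) := by
  classical
  have hlpi : LocallyPIndicable p (cen N) := by
    apply lpi_of_comm
    · intro x y
      apply Subtype.ext
      exact ((mem_cen N y).1 y.2).2 x ((mem_cen N x).1 x.2).1
    · intro z q hq hqp hz
      obtain ⟨w, hw, hwz⟩ := z.2
      have h1 : w = 1 := by
        apply hZ w hw q hq hqp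
        apply Subtype.ext
        have h2 := congrArg Subtype.val hz
        rw [Subgroup.coe_pow, ← hwz] at h2
        exact h2
      apply Subtype.ext
      rw [← hwz, h1]
      rfl
  have hcN : cen N ≤ N := fun z hz => ((mem_cen N z).1 hz).1
  have key : IsStablyFiniteRing (MonoidAlgebra K (G ⧸ cen N)) := by
    apply sf_of_local
    intro F
    -- pairs of distinct elements
    let ι := {q : F × F // q.1 ≠ q.2}
    have hsep : ∀ i : ι, ∃ L : FiniteIndexNormalSubgroup N,
        QuotientGroup.map (cen N) N (MonoidHom.id G) hcN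
          ((i.1.1 : G ⧸ cen N)⁻¹ * (i.1.2 : G ⧸ cen N)) ≠ 1 ∨
        QuotientGroup.lift (cen N) (conjHom N (N ⧸ L.toSubgroup)) (cen_le_ker N _)
          ((i.1.1 : G ⧸ cen N)⁻¹ * (i.1.2 : G ⧸ cen N)) ≠ 1 := by
      intro i
      obtain ⟨g, hg⟩ := QuotientGroup.mk_surjective
        ((i.1.1 : G ⧸ cen N)⁻¹ * (i.1.2 : G ⧸ cen N))
      have hgc : g ∉ cen N := by
        intro h
        rw [(QuotientGroup.eq_one_iff g).2 h] at hg
        apply i.2
        apply Subtype.ext
        exact inv_mul_eq_one.1 hg.symm
      rw [← hg]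
      rcases separate N g hgc with h | ⟨L, hL⟩
      · refine ⟨.ofSubgroup ⊤, Or.inl fun h1 => h ?_⟩
        exact (QuotientGroup.eq_one_iff g).1 h1
      · exact ⟨L, Or.inr hL⟩
    choose L hL using hsep
    have hfin : ∀ i, Finite (N →* N ⧸ (L i).toSubgroup) := by
      intro i
      have : Finite (N ⧸ (L i).toSubgroup) := inferInstance
      exact finite_hom _ _
    let P := ∀ i : ι, Equiv.Perm (N →* N ⧸ (L i).toSubgroup)
    have hP : Finite P := inferInstance
    let θ : G ⧸ cen N →* (G ⧸ N) × P :=
      (QuotientGroup.map (cen N) N (MonoidHom.id G) hcN).prod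
        (MonoidHom.pi fun i => QuotientGroup.lift (cen N) (conjHom N (N ⧸ (L i).toSubgroup))
          (cen_le_ker N _))
    refine ⟨(G ⧸ N) × P, inferInstance, θ, ?_, fun x _ y _ => map_mul θ x y, sf_prod_finite⟩
    intro x hx y hy hxy
    by_contra hne
    let i : ι := ⟨(⟨x, hx⟩, ⟨y, hy⟩), fun h => hne (congrArg Subtype.val h)⟩
    have h1 : θ (x⁻¹ * y) = 1 := by
      rw [map_mul, map_inv, hxy, inv_mul_cancel]
    rcases hL i with h | h
    · exact h (congrArg Prod.fst h1)
    · exact h (congrFun (congrArg Prod.snd h1) i)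
  exact ext_stablyFinite p hp (cen N) hlpi

end Vale.Agent.P194
end
end

section

section

namespace Vale.Agent.P194

open MonoidAlgebra

section Ev

variable {K G : Type*} [DivisionRing K] [Group G] {d : ℕ}

/-- Evaluate a group ring element at a point, through `φ`. -/
noncomputable def ev (φ : G → Equiv.Perm (Fin d)) (w : Fin d → K) (y : Fin d)
    (a : MonoidAlgebra K G) : K :=
  a.coeff.sum fun g s => w (φ g y) * s

theorem ev_add (φ : G → Equiv.Perm (Fin d)) (w : Fin d → K) (y : Fin d)
    (a b : MonoidAlgebra K G) : ev φ w y (a + b) = ev φ w y a + ev φ w y b := by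
  unfold ev
  rw [coeff_add, Finsupp.sum_add_index']
  · intro g; exact mul_zero _
  · intro g s t; exact mul_add _ _ _

theorem ev_single (φ : G → Equiv.Perm (Fin d)) (w : Fin d → K) (y : Fin d) (g : G) (s : K) :
    ev φ w y (single g s) = w (φ g y) * s := by
  unfold ev
  rw [coeff_single, Finsupp.sum_single_index (mul_zero _)]

/-- `ev` as an additive homomorphism in the group ring element. -/
noncomputable def evHom (φ : G → Equiv.Perm (Fin d)) (w : Fin d → K) (y : Fin d) :
    MonoidAlgebra K G →+ K :=
  AddMonoidHom.mk' (ev φ w y) (ev_add φ w y)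

theorem evHom_apply (φ : G → Equiv.Perm (Fin d)) (w : Fin d → K) (y : Fin d)
    (a : MonoidAlgebra K G) : evHom φ w y a = ev φ w y a := rfl

theorem ev_mul (φ : G → Equiv.Perm (Fin d)) (w : Fin d → K) (y : Fin d)
    (a b : MonoidAlgebra K G)
    (hy : ∀ g ∈ a.coeff.support, ∀ h ∈ b.coeff.support, φ g (φ h y) = φ (g * h) y) :
    ev φ w y (a * b) = b.coeff.sum fun h r => ev φ w (φ h y) a * r := by
  have h1 : ev φ w y (a * b) = evHom φ w y (a * b) := rfl
  rw [h1, mul_def, map_finsuppSum]
  simp only [map_finsuppSum]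
  rw [Finsupp.sum_comm]
  apply Finsupp.sum_congr
  intro h hh
  unfold ev
  rw [Finsupp.sum_mul]
  apply Finsupp.sum_congr
  intro g hg
  change ev φ w y (single (g * h) _) = _
  rw [ev_single, hy g hg h hh, mul_assoc]

end Ev

section LL

variable {K G : Type*} [DivisionRing K] [Group G] {d : ℕ} {n : Type*} [Fintype n]

/-- The linear map of row vectors given by a matrix over the group ring, through `φ`. -/
noncomputable def LL (φ : G → Equiv.Perm (Fin d)) (E : Matrix n n (MonoidAlgebra K G)) :
    (n × Fin d → K) →ₗ[K] (n × Fin d → K) where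
  toFun v q := ∑ i, ev φ (fun x => v (i, x)) q.2 (E i q.1)
  map_add' v v' := by
    funext q
    simp only [Pi.add_apply]
    rw [← Finset.sum_add_distrib]
    apply Finset.sum_congr rfl
    intro i _
    unfold ev
    rw [← Finsupp.sum_add]
    simp only [add_mul]
  map_smul' c v := by
    funext q
    simp only [Pi.smul_apply, RingHom.id_apply, smul_eq_mul]
    rw [Finset.mul_sum]
    apply Finset.sum_congr rfl
    intro i _
    unfold ev
    rw [Finsupp.mul_sum]
    simp only [mul_assoc]

theorem LL_apply (φ : G → Equiv.Perm (Fin d)) (E : Matrix n n (MonoidAlgebra K G))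
    (v : n × Fin d → K) (k : n) (y : Fin d) :
    LL φ E v (k, y) = ∑ i, ev φ (fun x => v (i, x)) y (E i k) := rfl

theorem LL_sub (φ : G → Equiv.Perm (Fin d)) (E E' : Matrix n n (MonoidAlgebra K G))
    (v : n × Fin d → K) : LL φ (E - E') v = LL φ E v - LL φ E' v := by
  funext q
  obtain ⟨k, y⟩ := q
  rw [Pi.sub_apply, LL_apply, LL_apply, LL_apply, ← Finset.sum_sub_distrib]
  apply Finset.sum_congr rfl
  intro i _
  rw [Matrix.sub_apply, ← evHom_apply, map_sub]
  rfl

theorem LL_one [DecidableEq n] (φ : G → Equiv.Perm (Fin d)) (v : n × Fin d → K) (k : n)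
    (y : Fin d) (hy : φ 1 y = y) :
    LL φ (1 : Matrix n n (MonoidAlgebra K G)) v (k, y) = v (k, y) := by
  rw [LL_apply, Finset.sum_eq_single k]
  · rw [Matrix.one_apply_eq, MonoidAlgebra.one_def, ev_single, hy, mul_one]
  · intro i _ hi
    rw [Matrix.one_apply_ne hi]
    exact map_zero (evHom φ (fun x => v (i, x)) y)
  · intro h
    exact absurd (Finset.mem_univ _) h

theorem LL_mul (φ : G → Equiv.Perm (Fin d)) (E E' : Matrix n n (MonoidAlgebra K G))
    (v : n × Fin d → K) (k : n) (y : Fin d)
    (hy : ∀ i j, ∀ g ∈ (E i j).coeff.support, ∀ i' j', ∀ h ∈ (E' i' j').coeff.support,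
      φ g (φ h y) = φ (g * h) y) :
    LL φ (E * E') v (k, y) = LL φ E' (LL φ E v) (k, y) := by
  rw [LL_apply, LL_apply]
  have h1 : ∀ i, ev φ (fun x => v (i, x)) y ((E * E') i k) =
      ∑ j, (E' j k).coeff.sum fun h r => ev φ (fun x => v (i, x)) (φ h y) (E i j) * r := by
    intro i
    rw [Matrix.mul_apply, ← evHom_apply, map_sum]
    apply Finset.sum_congr rfl
    intro j _
    rw [evHom_apply]
    exact ev_mul φ _ y _ _ (fun g hg h hh => hy _ _ g hg _ _ h hh)
  simp only [h1]
  rw [Finset.sum_comm]
  apply Finset.sum_congr rfl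
  intro j _
  change _ = (E' j k).coeff.sum fun h r => (∑ i, ev φ (fun x => v (i, x)) (φ h y) (E i j)) * r
  unfold Finsupp.sum
  rw [Finset.sum_comm]
  apply Finset.sum_congr rfl
  intro h _
  exact (Finset.sum_mul _ _ _).symm

end LL

section Dim

variable {K : Type*} [DivisionRing K] {V : Type*} [AddCommGroup V] [Module K V]
  [FiniteDimensional K V]

/-- `1 - a b` and `1 - b a` have the same rank. -/
theorem finrank_range_sub_comm (a b : V →ₗ[K] V) :
    Module.finrank K (LinearMap.range (a ∘ₗ b - LinearMap.id)) ≤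
      Module.finrank K (LinearMap.range (b ∘ₗ a - LinearMap.id)) := by
  have h1 : Module.finrank K (LinearMap.ker (b ∘ₗ a - LinearMap.id)) ≤
      Module.finrank K (LinearMap.ker (a ∘ₗ b - LinearMap.id)) := by
    let f : LinearMap.ker (b ∘ₗ a - LinearMap.id) →ₗ[K]
        LinearMap.ker (a ∘ₗ b - LinearMap.id) :=
      LinearMap.restrict a (by
        intro x hx
        rw [LinearMap.mem_ker, LinearMap.sub_apply, LinearMap.comp_apply, LinearMap.id_apply,
          sub_eq_zero] at hx ⊢
        rw [hx])
    apply LinearMap.finrank_le_finrank_of_injective (f := f)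
    intro x y hxy
    have h2 : a x.1 = a y.1 := congrArg Subtype.val hxy
    have hx := x.2
    have hy := y.2
    rw [LinearMap.mem_ker, LinearMap.sub_apply, LinearMap.comp_apply, LinearMap.id_apply,
      sub_eq_zero] at hx hy
    apply Subtype.ext
    rw [← hx, ← hy, h2]
  have h3 := LinearMap.finrank_range_add_finrank_ker (b ∘ₗ a - LinearMap.id)
  have h4 := LinearMap.finrank_range_add_finrank_ker (a ∘ₗ b - LinearMap.id)
  omega

end Dim

section Supp

variable {K : Type*} [DivisionRing K] {n : Type*} [Fintype n] {d : ℕ}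

theorem finrank_range_of_supp (T : (n × Fin d → K) →ₗ[K] (n × Fin d → K)) (Bad : Finset (Fin d))
    (hT : ∀ v k y, y ∉ Bad → T v (k, y) = 0) :
    Module.finrank K (LinearMap.range T) ≤ Fintype.card n * Bad.card := by
  let r : LinearMap.range T →ₗ[K] (n × Bad → K) :=
    { toFun := fun w q => w.1 (q.1, q.2.1)
      map_add' := fun _ _ => rfl
      map_smul' := fun _ _ => rfl }
  have hr : Function.Injective r := by
    intro w w' h
    apply Subtype.ext
    funext q
    obtain ⟨k, y⟩ := q
    by_cases hy : y ∈ Bad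
    · exact congrFun h (k, ⟨y, hy⟩)
    · obtain ⟨v, hv⟩ := w.2
      obtain ⟨v', hv'⟩ := w'.2
      rw [← hv, ← hv', hT v k y hy, hT v' k y hy]
  calc Module.finrank K (LinearMap.range T) ≤ Module.finrank K (n × Bad → K) :=
        LinearMap.finrank_le_finrank_of_injective hr
    _ = Fintype.card n * Bad.card := by
        rw [Module.finrank_fintype_fun_eq_card, Fintype.card_prod, Fintype.card_coe]

/-- A maximal separated subset. -/
theorem exists_separated (Good : Finset (Fin d)) {ι : Type*} [DecidableEq ι] (Z : Finset ι)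
    (ψ : ι → Equiv.Perm (Fin d)) (g₀ : ι) :
    ∃ Y ⊆ Good, (∀ y ∈ Y, ∀ y' ∈ Y, y ≠ y' → ∀ g ∈ Z, ψ g y ≠ ψ g₀ y') ∧
      Good.card ≤ Y.card * (1 + 2 * Z.card) := by
  classical
  let P : Finset (Fin d) → Prop := fun Y =>
    ∀ y ∈ Y, ∀ y' ∈ Y, y ≠ y' → ∀ g ∈ Z, ψ g y ≠ ψ g₀ y'
  have hne : ((Good.powerset).filter P).Nonempty :=
    ⟨∅, by
      rw [Finset.mem_filter]
      refine ⟨Finset.empty_mem_powerset _, ?_⟩
      intro y hy
      exact absurd hy (Finset.notMem_empty y)⟩
  obtain ⟨Y, hY⟩ := Finset.exists_max_image _ Finset.card hne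
  obtain ⟨hY1, hmax⟩ := hY
  rw [Finset.mem_filter, Finset.mem_powerset] at hY1
  refine ⟨Y, hY1.1, hY1.2, ?_⟩
  have hcover : Good ⊆ Y.biUnion (fun y' =>
      ({y'} ∪ (Z.image (fun g => (ψ g).symm (ψ g₀ y')) ∪
        Z.image (fun g => (ψ g₀).symm (ψ g y'))) : Finset (Fin d))) := by
    intro y hy
    by_contra hcon
    rw [Finset.mem_biUnion] at hcon
    push Not at hcon
    have hyY : y ∉ Y := fun h => hcon y h (by simp)
    have hP : P (insert y Y) := by
      intro a ha b hb hab g hg heq
      rw [Finset.mem_insert] at ha hb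
      rcases ha with rfl | ha
      · rcases hb with rfl | hb
        · exact hab rfl
        · apply hcon b hb
          rw [Finset.mem_union, Finset.mem_union]
          right; left
          rw [Finset.mem_image]
          exact ⟨g, hg, by rw [← heq]; simp⟩
      · rcases hb with rfl | hb
        · apply hcon a ha
          rw [Finset.mem_union, Finset.mem_union]
          right; right
          rw [Finset.mem_image]
          exact ⟨g, hg, by rw [heq]; simp⟩
        · exact hY1.2 a ha b hb hab g hg heq
    have h1 := hmax (insert y Y) (by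
      rw [Finset.mem_filter, Finset.mem_powerset]
      exact ⟨Finset.insert_subset hy hY1.1, hP⟩)
    rw [Finset.card_insert_of_notMem hyY] at h1
    omega
  calc Good.card ≤ _ := Finset.card_le_card hcover
    _ ≤ ∑ y' ∈ Y, _ := Finset.card_biUnion_le
    _ ≤ ∑ y' ∈ Y, (1 + 2 * Z.card) := by
        apply Finset.sum_le_sum
        intro y' _
        refine (Finset.card_union_le _ _).trans ?_
        have h1 := Finset.card_union_le (Z.image (fun g => (ψ g).symm (ψ g₀ y')))
          (Z.image (fun g => (ψ g₀).symm (ψ g y')))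
        have h2 : (Z.image (fun g => (ψ g).symm (ψ g₀ y'))).card ≤ Z.card :=
          Finset.card_image_le
        have h3 : (Z.image (fun g => (ψ g₀).symm (ψ g y'))).card ≤ Z.card :=
          Finset.card_image_le
        rw [Finset.card_singleton]
        omega
    _ = Y.card * (1 + 2 * Z.card) := by rw [Finset.sum_const, smul_eq_mul]

end Supp

end Vale.Agent.P194
end
end

section

section

namespace Vale.Agent.P194

open MonoidAlgebra

section Main

variable {K G : Type*} [DivisionRing K] [Group G] {n : Type*} [Fintype n] [DecidableEq n]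

/-- A counting bound: no model of `G` with few bad points can exist when `1 - B A ≠ 0`. -/
theorem sofic_count {d : ℕ} (φ : G → Equiv.Perm (Fin d))
    (A B : Matrix n n (MonoidAlgebra K G)) (hAB : A * B = 1)
    (U : Finset G) (h1U : (1 : G) ∈ U)
    (hAU : ∀ i j, (A i j).coeff.support ⊆ U) (hBU : ∀ i j, (B i j).coeff.support ⊆ U)
    (i₀ j₀ : n) (Z : Finset G) (hZ : ((1 - B * A) i₀ j₀).coeff.support = Z) (hZU : Z ⊆ U)
    (g₀ : G) (hg₀ : g₀ ∈ Z) (hZZ : ∀ g ∈ Z, g₀⁻¹ * g ∈ U)
    (Bad : Finset (Fin d))
    (hbad1 : ∀ y ∉ Bad, ∀ g ∈ U, ∀ h ∈ U, φ g (φ h y) = φ (g * h) y)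
    (hbad2 : ∀ y ∉ Bad, ∀ g ∈ U, g ≠ 1 → φ g y ≠ y) :
    d ≤ Bad.card * (1 + 2 * Fintype.card n * (1 + 2 * Z.card)) := by
  classical
  have hone : ∀ y ∉ Bad, φ 1 y = y := by
    intro y hy
    have := hbad1 y hy 1 h1U 1 h1U
    rw [mul_one] at this
    exact (φ 1).injective this
  set a := LL φ A with ha
  set b := LL φ B with hb
  have hr1 : Module.finrank K (LinearMap.range (b ∘ₗ a - LinearMap.id)) ≤
      Fintype.card n * Bad.card := by
    apply finrank_range_of_supp
    intro v k y hy
    rw [LinearMap.sub_apply, LinearMap.comp_apply, LinearMap.id_apply, Pi.sub_apply, ha, hb,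
      ← LL_mul φ A B v k y, hAB, LL_one φ v k y (hone y hy), sub_self]
    intro i j g hg i' j' h hh
    exact hbad1 y hy g (hAU _ _ hg) h (hBU _ _ hh)
  have hr2 := (finrank_range_sub_comm a b).trans hr1
  have hr3 : Module.finrank K
      (LinearMap.range (LL φ (1 - B * A) + (a ∘ₗ b - LinearMap.id))) ≤
      Fintype.card n * Bad.card := by
    apply finrank_range_of_supp
    intro v k y hy
    rw [LinearMap.add_apply, LinearMap.sub_apply, LinearMap.comp_apply, LinearMap.id_apply,
      Pi.add_apply, Pi.sub_apply, LL_sub, Pi.sub_apply, LL_one φ v k y (hone y hy), ha, hb,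
      LL_mul φ B A v k y]
    · abel
    · intro i j g hg i' j' h hh
      exact hbad1 y hy g (hBU _ _ hg) h (hAU _ _ hh)
  have hr4 : Module.finrank K (LinearMap.range (LL φ (1 - B * A))) ≤
      2 * (Fintype.card n * Bad.card) := by
    have h1 : LinearMap.range (LL φ (1 - B * A)) ≤
        LinearMap.range (LL φ (1 - B * A) + (a ∘ₗ b - LinearMap.id)) ⊔
          LinearMap.range (a ∘ₗ b - LinearMap.id) := by
      rintro _ ⟨v, rfl⟩
      have h2 : LL φ (1 - B * A) v =
          (LL φ (1 - B * A) + (a ∘ₗ b - LinearMap.id) : (n × Fin d → K) →ₗ[K] _) v -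
          (a ∘ₗ b - LinearMap.id : (n × Fin d → K) →ₗ[K] (n × Fin d → K)) v := by
        rw [LinearMap.add_apply, add_sub_cancel_right]
      rw [h2]
      exact Submodule.sub_mem _ (Submodule.mem_sup_left ⟨v, rfl⟩)
        (Submodule.mem_sup_right ⟨v, rfl⟩)
    have h2 := Submodule.finrank_mono h1
    have h3 := Submodule.finrank_add_le_finrank_add_finrank
      (LinearMap.range (LL φ (1 - B * A) + (a ∘ₗ b - LinearMap.id)))
      (LinearMap.range (a ∘ₗ b - LinearMap.id))
    omega
  -- the separated set
  obtain ⟨Y, hYG, hYsep, hYcard⟩ := exists_separated (Finset.univ \ Bad) Z φ g₀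
  have hYbad : ∀ y ∈ Y, y ∉ Bad := fun y hy => (Finset.mem_sdiff.1 (hYG hy)).2
  have hlin : LinearIndependent K (fun y' : Y => (⟨LL φ (1 - B * A)
      (Pi.single (i₀, φ g₀ y'.1) 1), ⟨_, rfl⟩⟩ : LinearMap.range (LL φ (1 - B * A)))) := by
    have key : ∀ y ∈ Y, ∀ y' ∈ Y, LL φ (1 - B * A) (Pi.single (i₀, φ g₀ y') 1) (j₀, y) =
        if y = y' then ((1 - B * A) i₀ j₀).coeff g₀ else 0 := by
      intro y hy y' hy'
      rw [LL_apply, Finset.sum_eq_single i₀]
      · unfold ev
        unfold Finsupp.sum
        rw [hZ]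
        split_ifs with hyy
        · subst hyy
          rw [Finset.sum_eq_single g₀]
          · simp
          · intro g hg hgg
            have h1 : φ g y ≠ φ g₀ y := by
              intro heq
              have h2 := hbad1 y (hYbad y hy) g₀ (hZU hg₀) (g₀⁻¹ * g) (hZZ g hg)
              rw [mul_inv_cancel_left, heq] at h2
              have h3 : φ (g₀⁻¹ * g) y = y := (φ g₀).injective h2
              apply hbad2 y (hYbad y hy) _ (hZZ g hg) _ h3
              intro h4
              exact hgg (inv_mul_eq_one.1 h4).symm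
            change (Pi.single (i₀, φ g₀ y) (1 : K) : n × Fin d → K) (i₀, φ g y) * _ = 0
            rw [Pi.single_eq_of_ne, zero_mul]
            intro heq
            exact h1 (Prod.mk.inj heq).2
          · intro h; exact absurd hg₀ h
        · apply Finset.sum_eq_zero
          intro g hg
          change (Pi.single (i₀, φ g₀ y') (1 : K) : n × Fin d → K) (i₀, φ g y) * _ = 0
          rw [Pi.single_eq_of_ne, zero_mul]
          intro heq
          exact hYsep y hy y' hy' hyy g hg (Prod.mk.inj heq).2
      · intro i _ hi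
        unfold ev
        unfold Finsupp.sum
        apply Finset.sum_eq_zero
        intro g _
        change (Pi.single (i₀, φ g₀ y') (1 : K) : n × Fin d → K) (i, φ g y) * _ = 0
        rw [Pi.single_eq_of_ne, zero_mul]
        intro heq
        exact hi (Prod.mk.inj heq).1
      · intro h; exact absurd (Finset.mem_univ _) h
    have hcoef : ((1 - B * A) i₀ j₀).coeff g₀ ≠ 0 := by
      rw [← Finsupp.mem_support_iff, hZ]
      exact hg₀
    rw [Fintype.linearIndependent_iff]
    intro c hc y
    have h1 := congrArg (fun w : LinearMap.range (LL φ (1 - B * A)) => w.1 (j₀, y.1)) hc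
    simp only [Submodule.coe_sum, Submodule.coe_smul, Finset.sum_apply, Pi.smul_apply,
      smul_eq_mul] at h1
    rw [Finset.sum_eq_single y] at h1
    · rw [key y.1 y.2 y.1 y.2, if_pos rfl] at h1
      have h2 : c y * ((1 - B * A) i₀ j₀).coeff g₀ = 0 := h1
      exact (mul_eq_zero.1 h2).resolve_right hcoef
    · intro y' _ hne
      rw [key y.1 y.2 y'.1 y'.2, if_neg, mul_zero]
      intro h
      exact hne (Subtype.ext h.symm)
    · intro h; exact absurd (Finset.mem_univ _) h
  have hY2 := hlin.fintype_card_le_finrank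
  rw [Fintype.card_coe] at hY2
  have hd : d ≤ (Finset.univ \ Bad).card + Bad.card := by
    have h1 := Finset.card_sdiff_add_card (Finset.univ : Finset (Fin d)) Bad
    have h2 : (Finset.univ : Finset (Fin d)).card ≤ (Finset.univ ∪ Bad).card :=
      Finset.card_le_card Finset.subset_union_left
    rw [Finset.card_univ, Fintype.card_fin] at h2
    omega
  have hfin : Y.card ≤ 2 * (Fintype.card n * Bad.card) := hY2.trans hr4
  calc d ≤ (Finset.univ \ Bad).card + Bad.card := hd
    _ ≤ Y.card * (1 + 2 * Z.card) + Bad.card := by omega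
    _ ≤ (2 * (Fintype.card n * Bad.card)) * (1 + 2 * Z.card) + Bad.card :=
        Nat.add_le_add_right (Nat.mul_le_mul_right _ hfin) _
    _ = Bad.card * (1 + 2 * Fintype.card n * (1 + 2 * Z.card)) := by ring

/-- Elek and Szabo: sofic groups have stably finite group rings over division rings. -/
theorem sofic_matrix (hG : IsSofic G) (A B : Matrix n n (MonoidAlgebra K G)) (hAB : A * B = 1) :
    B * A = 1 := by
  classical
  by_contra hne
  have hF : (1 - B * A) ≠ 0 := fun h => hne (sub_eq_zero.1 h).symm
  obtain ⟨i₀, j₀, hij⟩ : ∃ i₀ j₀, (1 - B * A) i₀ j₀ ≠ 0 := by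
    by_contra hcon
    push Not at hcon
    exact hF (Matrix.ext hcon)
  set f := (1 - B * A) i₀ j₀ with hf
  set Z := f.coeff.support with hZ
  obtain ⟨g₀, hg₀⟩ : Z.Nonempty := by
    rw [hZ, Finsupp.support_nonempty_iff]
    intro h
    exact hij (MonoidAlgebra.coeff_eq_zero.1 h)
  let S : Finset G := Finset.univ.biUnion fun q : n × n => (A q.1 q.2).coeff.support
  let T : Finset G := Finset.univ.biUnion fun q : n × n => (B q.1 q.2).coeff.support
  let U : Finset G := insert 1 (S ∪ T ∪ Z ∪ Z.image (fun g => g₀⁻¹ * g))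
  have h1U : (1 : G) ∈ U := Finset.mem_insert_self _ _
  have hAU : ∀ i j, (A i j).coeff.support ⊆ U := by
    intro i j g hg
    apply Finset.mem_insert_of_mem
    apply Finset.mem_union_left
    apply Finset.mem_union_left
    apply Finset.mem_union_left
    exact Finset.mem_biUnion.2 ⟨(i, j), Finset.mem_univ _, hg⟩
  have hBU : ∀ i j, (B i j).coeff.support ⊆ U := by
    intro i j g hg
    apply Finset.mem_insert_of_mem
    apply Finset.mem_union_left
    apply Finset.mem_union_left
    apply Finset.mem_union_right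
    exact Finset.mem_biUnion.2 ⟨(i, j), Finset.mem_univ _, hg⟩
  have hZU : Z ⊆ U := by
    intro g hg
    apply Finset.mem_insert_of_mem
    apply Finset.mem_union_left
    exact Finset.mem_union_right _ hg
  have hZZ : ∀ g ∈ Z, g₀⁻¹ * g ∈ U := by
    intro g hg
    apply Finset.mem_insert_of_mem
    apply Finset.mem_union_right
    exact Finset.mem_image_of_mem _ hg
  set M : ℕ := U.card * U.card + U.card with hM
  set C : ℕ := 1 + 2 * Fintype.card n * (1 + 2 * Z.card) with hC
  have hMpos : 0 < M := by
    have : 0 < U.card := Finset.card_pos.2 ⟨1, h1U⟩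
    positivity
  have hCpos : 0 < C := by positivity
  obtain ⟨d, φ, hd, hφ1, hφ2⟩ := hG U (1 / (2 * M * C)) (by positivity)
  let Bad : Finset (Fin d) :=
    (U ×ˢ U).biUnion (fun q => {x | φ q.1 (φ q.2 x) ≠ φ (q.1 * q.2) x}) ∪
      (U.erase 1).biUnion (fun g => {x | φ g x = x})
  have hbad1 : ∀ y ∉ Bad, ∀ g ∈ U, ∀ h ∈ U, φ g (φ h y) = φ (g * h) y := by
    intro y hy g hg h hh
    by_contra hcon
    apply hy
    apply Finset.mem_union_left
    rw [Finset.mem_biUnion]
    exact ⟨(g, h), Finset.mem_product.2 ⟨hg, hh⟩, by simpa using hcon⟩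
  have hbad2 : ∀ y ∉ Bad, ∀ g ∈ U, g ≠ 1 → φ g y ≠ y := by
    intro y hy g hg hg1 hcon
    apply hy
    apply Finset.mem_union_right
    rw [Finset.mem_biUnion]
    exact ⟨g, Finset.mem_erase.2 ⟨hg1, hg⟩, by simpa using hcon⟩
  have hcount := sofic_count φ A B hAB U h1U hAU hBU i₀ j₀ Z rfl hZU g₀ hg₀ hZZ Bad hbad1 hbad2
  rw [← hC] at hcount
  have hBadcard : (Bad.card : ℝ) ≤ M * (1 / (2 * M * C) * d) := by
    have h1 : (Bad.card : ℝ) ≤
        (((U ×ˢ U).biUnion
          (fun q => ({x | φ q.1 (φ q.2 x) ≠ φ (q.1 * q.2) x} : Finset (Fin d)))).card : ℝ) +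
        ((U.erase 1).biUnion (fun g => ({x | φ g x = x} : Finset (Fin d)))).card := by
      exact_mod_cast Finset.card_union_le _ _
    have h2 : (((U ×ˢ U).biUnion
          (fun q => ({x | φ q.1 (φ q.2 x) ≠ φ (q.1 * q.2) x} : Finset (Fin d)))).card : ℝ) ≤
        (U.card * U.card : ℝ) * (1 / (2 * M * C) * d) := by
      calc (((U ×ˢ U).biUnion
          (fun q => ({x | φ q.1 (φ q.2 x) ≠ φ (q.1 * q.2) x} : Finset (Fin d)))).card : ℝ) ≤
          ((∑ q ∈ U ×ˢ U,
            ({x | φ q.1 (φ q.2 x) ≠ φ (q.1 * q.2) x} : Finset (Fin d)).card : ℕ) : ℝ) := by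
            exact_mod_cast Finset.card_biUnion_le
        _ ≤ ∑ q ∈ U ×ˢ U, (1 / (2 * M * C) * d : ℝ) := by
            rw [Nat.cast_sum]
            apply Finset.sum_le_sum
            intro q hq
            rw [Finset.mem_product] at hq
            exact hφ1 q.1 hq.1 q.2 hq.2
        _ = (U.card * U.card : ℝ) * (1 / (2 * M * C) * d) := by
            rw [Finset.sum_const, Finset.card_product, nsmul_eq_mul]
            push_cast
            ring
    have h3 : (((U.erase 1).biUnion (fun g => ({x | φ g x = x} : Finset (Fin d)))).card : ℝ) ≤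
        (U.card : ℝ) * (1 / (2 * M * C) * d) := by
      calc (((U.erase 1).biUnion (fun g => ({x | φ g x = x} : Finset (Fin d)))).card : ℝ) ≤
          ((∑ g ∈ U.erase 1, ({x | φ g x = x} : Finset (Fin d)).card : ℕ) : ℝ) := by
            exact_mod_cast Finset.card_biUnion_le
        _ ≤ ∑ g ∈ U.erase 1, (1 / (2 * M * C) * d : ℝ) := by
            rw [Nat.cast_sum]
            apply Finset.sum_le_sum
            intro g hg
            rw [Finset.mem_erase] at hg
            exact hφ2 g hg.2 hg.1
        _ = ((U.erase 1).card : ℝ) * (1 / (2 * M * C) * d) := by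
            rw [Finset.sum_const, nsmul_eq_mul]
        _ ≤ (U.card : ℝ) * (1 / (2 * M * C) * d) := by
            apply mul_le_mul_of_nonneg_right
            · exact_mod_cast Finset.card_erase_le
            · positivity
    have h4 : (M : ℝ) = U.card * U.card + U.card := by
      rw [hM]; push_cast; ring
    have h5 : (M : ℝ) * (1 / (2 * M * C) * d) =
        (U.card * U.card : ℝ) * (1 / (2 * M * C) * d) + (U.card : ℝ) * (1 / (2 * M * C) * d) := by
      rw [← add_mul, ← h4]
    rw [h5]
    exact h1.trans (add_le_add h2 h3)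
  have hM' : (0 : ℝ) < M := by exact_mod_cast hMpos
  have hC' : (0 : ℝ) < C := by exact_mod_cast hCpos
  have hd' : (0 : ℝ) < d := by exact_mod_cast hd
  have h5 : (d : ℝ) ≤ Bad.card * C := by exact_mod_cast hcount
  have h6 : (Bad.card : ℝ) * C ≤ M * (1 / (2 * M * C) * d) * C :=
    mul_le_mul_of_nonneg_right hBadcard hC'.le
  have h7 : (M : ℝ) * (1 / (2 * M * C) * d) * C = d / 2 := by
    field_simp
  linarith

end Main

end Vale.Agent.P194
end
end
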